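import Mathlib

/-!
P147: iid random walk in random environment on the integer lattice, built from environments and
uniform random numbers, and its step sequence.
-/

open MeasureTheory ProbabilityTheory
open scoped ENNReal

noncomputable section

namespace Vale.Agent.P147

variable {d : ℕ}

/-- A signed coordinate step. -/
abbrev Step (d : ℕ) := Fin d × Bool

/-- A site of the lattice. -/
abbrev Pos (d : ℕ) := Fin d → ℤ

/-- An environment: a row of transition probabilities at every site. -/
abbrev Env (d : ℕ) := Pos d → Step d → ℝ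

/-- The lattice vector of a step. -/
def vec (e : Step d) : Pos d := Pi.single e.1 (if e.2 then 1 else -1)

/-- The position after `n` steps. -/
def pos (η : ℕ → Step d) : ℕ → Pos d
  | 0 => 0
  | n + 1 => pos η n + vec (η n)

/-- Number of steps available. -/
abbrev nS (d : ℕ) : ℕ := Fintype.card (Step d)

/-- The label of a step. -/
def lab (e : Step d) : ℕ := Fintype.equivFin (Step d) e

/-- Total probability of the steps with label below `k`. -/
def cum (p : Step d → ℝ) (k : ℕ) : ℝ := ∑ e ∈ Finset.univ.filter (fun e => lab e < k), p e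

lemma nS_pos [NeZero d] : 0 < nS d := Fintype.card_pos

/-- The interval containing `u` in the partition of `[0,1)` given by `p`. -/
def idx (p : Step d → ℝ) (u : ℝ) : ℕ :=
  ∑ k ∈ Finset.range (nS d), if cum p (k + 1) ≤ u then 1 else 0

/-- Sampling a step from a row with a uniform number. -/
def choose [NeZero d] (p : Step d → ℝ) (u : ℝ) : Step d :=
  (Fintype.equivFin (Step d)).symm
    ⟨min (idx p u) (nS d - 1), lt_of_le_of_lt (min_le_right _ _) (Nat.sub_one_lt nS_pos.ne')⟩

variable [NeZero d]

/-- The trajectory for an environment and a sequence of uniform numbers. -/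
def walkPos (q : Env d × (ℕ → ℝ)) : ℕ → Pos d
  | 0 => 0
  | n + 1 => walkPos q n + vec (choose (q.1 (walkPos q n)) (q.2 n))

/-- The steps of the trajectory. -/
def stepsOf (q : Env d × (ℕ → ℝ)) (n : ℕ) : Step d := choose (q.1 (walkPos q n)) (q.2 n)

lemma pos_stepsOf (q : Env d × (ℕ → ℝ)) (n : ℕ) : pos (stepsOf q) n = walkPos q n := by
  induction n with
  | zero => rfl
  | succ n ih => simp [pos, walkPos, ih, stepsOf]

/-- The uniform law on `[0,1)`. -/
def unif : Measure ℝ := volume.restrict (Set.Ico (0 : ℝ) 1)

instance : IsProbabilityMeasure unif := ⟨by simp [unif]⟩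

/-- The annealed law: an iid environment together with iid uniform numbers. -/
def annealed (μ : Measure (Step d → ℝ)) : Measure (Env d × (ℕ → ℝ)) :=
  (Measure.infinitePi fun _ : Pos d => μ).prod (Measure.infinitePi fun _ : ℕ => unif)

/-- An iid elliptic environment law. -/
def Elliptic (μ : Measure (Step d → ℝ)) : Prop :=
  IsProbabilityMeasure μ ∧ ∀ᵐ p ∂μ, (∀ e, 0 < p e) ∧ ∑ e, p e = 1

lemma measurable_cum (k : ℕ) : Measurable (fun p : Step d → ℝ => cum p k) := by
  unfold cum; fun_prop

lemma measurable_choose :
    Measurable (fun q : (Step d → ℝ) × ℝ => choose q.1 q.2) := by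
  have h1 : Measurable (fun q : (Step d → ℝ) × ℝ => idx q.1 q.2) := by
    unfold idx
    refine Finset.measurable_sum _ fun k _ => Measurable.ite ?_ measurable_const measurable_const
    exact measurableSet_le ((measurable_cum _).comp measurable_fst) measurable_snd
  exact (measurable_of_countable fun i : ℕ => (Fintype.equivFin (Step d)).symm
    ⟨min i (nS d - 1), lt_of_le_of_lt (min_le_right _ _) (Nat.sub_one_lt nS_pos.ne')⟩).comp h1

lemma measurable_stepAt (g : Env d × (ℕ → ℝ) → Pos d) (hg : Measurable g) (n : ℕ) :
    Measurable (fun q : Env d × (ℕ → ℝ) => choose (q.1 (g q)) (q.2 n)) := by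
  let F : (Env d × (ℕ → ℝ)) × Pos d → (Step d → ℝ) × ℝ := fun r => (r.1.1 r.2, r.1.2 n)
  have h2 : Measurable F := measurable_from_prod_countable_left fun x =>
    ((measurable_pi_apply x).comp measurable_fst).prodMk
      ((measurable_pi_apply n).comp measurable_snd)
  let G : Env d × (ℕ → ℝ) → (Env d × (ℕ → ℝ)) × Pos d := fun q => (q, g q)
  have h3 : Measurable G := measurable_id.prodMk hg
  have h4 : Measurable ((fun r : (Step d → ℝ) × ℝ => choose r.1 r.2) ∘ (F ∘ G)) :=
    (measurable_choose (d := d)).comp (h2.comp h3)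
  simpa only [F, G, Function.comp_def] using h4

lemma measurable_walkPos (n : ℕ) : Measurable (fun q : Env d × (ℕ → ℝ) => walkPos q n) := by
  induction n with
  | zero => exact measurable_const
  | succ n ih =>
    exact (measurable_of_countable fun r : Pos d × Step d => r.1 + vec r.2).comp
      (ih.prodMk (measurable_stepAt _ ih n))

lemma measurable_stepsOf : Measurable (stepsOf (d := d)) :=
  measurable_pi_lambda _ fun n => measurable_stepAt _ (measurable_walkPos n) n

omit [NeZero d] in
lemma cum_mono {p : Step d → ℝ} (hp : ∀ e, 0 ≤ p e) : Monotone (cum p) := fun i j h =>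
  Finset.sum_le_sum_of_subset_of_nonneg
    (fun e he => by simp only [Finset.mem_filter] at he ⊢; exact ⟨he.1, he.2.trans_le h⟩)
    fun e _ _ => hp e

omit [NeZero d] in
lemma cum_succ (p : Step d → ℝ) (e : Step d) : cum p (lab e + 1) = cum p (lab e) + p e := by
  have h : Finset.univ.filter (fun e' => lab e' < lab e + 1)
      = insert e (Finset.univ.filter (fun e' => lab e' < lab e)) := by
    ext e'
    simp only [Finset.mem_filter, Finset.mem_univ, true_and, Finset.mem_insert]
    constructor
    · intro h
      rcases Nat.lt_succ_iff_lt_or_eq.mp h with h' | h'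
      · exact Or.inr h'
      · exact Or.inl ((Fintype.equivFin (Step d)).injective (Fin.ext h'))
    · rintro (rfl | h') <;> omega
  rw [cum, h, Finset.sum_insert (by simp), cum]; ring

lemma choose_eq_iff {p : Step d → ℝ} (hp : ∀ e, 0 ≤ p e) (hs : ∑ e, p e = 1) {u : ℝ}
    (hu : u ∈ Set.Ico (0 : ℝ) 1) (e : Step d) :
    choose p u = e ↔ u ∈ Set.Ico (cum p (lab e)) (cum p (lab e + 1)) := by
  have key : ∀ e' : Step d, u ∈ Set.Ico (cum p (lab e')) (cum p (lab e' + 1)) → idx p u = lab e' := by
    intro e' h
    have hl : lab e' < nS d := (Fintype.equivFin (Step d) e').isLt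
    have h2 : (Finset.range (nS d)).filter (fun k => cum p (k + 1) ≤ u) = Finset.range (lab e') := by
      ext k
      simp only [Finset.mem_filter, Finset.mem_range]
      constructor
      · rintro ⟨_, h3⟩
        by_contra hc
        exact absurd ((cum_mono hp (show lab e' + 1 ≤ k + 1 by omega)).trans h3) (not_le.mpr h.2)
      · exact fun h3 => ⟨by omega, (cum_mono hp (show k + 1 ≤ lab e' by omega)).trans h.1⟩
    rw [idx, Finset.sum_boole, h2, Finset.card_range]
    rfl
  have hchoose : ∀ e' : Step d, u ∈ Set.Ico (cum p (lab e')) (cum p (lab e' + 1)) →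
      choose p u = e' := by
    intro e' h
    have hl : lab e' < nS d := (Fintype.equivFin (Step d) e').isLt
    unfold choose
    rw [Equiv.symm_apply_eq]
    apply Fin.ext
    simp only [key e' h]
    change min (lab e') (nS d - 1) = lab e'
    omega
  refine ⟨fun h => ?_, hchoose e⟩
  -- some interval contains `u`
  have h0 : cum p 0 = 0 := by simp [cum]
  have hN : cum p (nS d) = 1 := by
    rw [cum, Finset.filter_true_of_mem (p := fun e => lab e < nS d)
      fun e _ => (Fintype.equivFin (Step d) e).isLt, hs]
  have hex : ∃ k, u < cum p k := ⟨nS d, hN ▸ hu.2⟩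
  obtain ⟨k, hk⟩ : ∃ k, Nat.find hex = k + 1 := by
    refine ⟨Nat.find hex - 1, ?_⟩
    have : Nat.find hex ≠ 0 := fun h' => by
      have := Nat.find_spec hex
      rw [h', h0] at this
      linarith [hu.1]
    omega
  have hkN : k < nS d := by
    have := Nat.find_le (h := hex) (n := nS d) (hN ▸ hu.2); omega
  set e' := (Fintype.equivFin (Step d)).symm ⟨k, hkN⟩
  have hle : lab e' = k := by simp [lab, e']
  have h' : u ∈ Set.Ico (cum p (lab e')) (cum p (lab e' + 1)) := by
    rw [hle]
    exact ⟨not_lt.mp (Nat.find_min hex (by omega)), hk ▸ Nat.find_spec hex⟩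
  have := hchoose e' h'
  rw [h] at this
  exact this ▸ h'

lemma unif_choose {p : Step d → ℝ} (hp : ∀ e, 0 ≤ p e) (hs : ∑ e, p e = 1) (e : Step d) :
    unif {u | choose p u = e} = ENNReal.ofReal (p e) := by
  have h0 : (0 : ℝ) ≤ cum p (lab e) := Finset.sum_nonneg fun e _ => hp e
  have h1 : cum p (lab e + 1) ≤ 1 :=
    hs ▸ Finset.sum_le_sum_of_subset_of_nonneg (Finset.filter_subset _ _) fun e _ _ => hp e
  have hset : {u | choose p u = e} ∩ Set.Ico (0 : ℝ) 1
      = Set.Ico (cum p (lab e)) (cum p (lab e + 1)) := by
    ext u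
    constructor
    · exact fun ⟨h, hu⟩ => (choose_eq_iff hp hs hu e).mp h
    · intro h
      have hu : u ∈ Set.Ico (0 : ℝ) 1 := ⟨h0.trans h.1, h.2.trans_le h1⟩
      exact ⟨(choose_eq_iff hp hs hu e).mpr h, hu⟩
  rw [unif, Measure.restrict_apply' measurableSet_Ico, hset, Real.volume_Ico, cum_succ]
  congr 1; ring

end Vale.Agent.P147
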