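import Mathlib

/-!
P147: binomial probabilities are at most a constant over the square root of the number of trials.
-/

open scoped ENNReal

namespace Vale.Agent.P147

lemma seq_run {g : ℕ → ℝ} {c : ℝ} {n : ℕ} (hc : 0 ≤ c) (hg : ∀ i, 0 ≤ g i)
    (hn : (n : ℝ) ^ 2 * c ≤ 1)
    (hstep : ∀ i < n, g i * (1 - ((i : ℝ) + 1) * c) ≤ g (i + 1)) :
    ∀ i ≤ n, g 0 * (1 - (i : ℝ) ^ 2 * c) ≤ g i := by
  intro i
  induction i with
  | zero => simp
  | succ i ih =>
    intro hi
    have hiR : ((i : ℝ) + 1) ≤ n := by exact_mod_cast hi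
    have h0 : (0 : ℝ) ≤ i := Nat.cast_nonneg i
    have h1 : ((i : ℝ) + 1) * c ≤ 1 :=
      le_trans (mul_le_mul_of_nonneg_right (by nlinarith) hc) hn
    have h2 := mul_le_mul_of_nonneg_right (ih (by omega))
      (show 0 ≤ 1 - ((i : ℝ) + 1) * c by linarith)
    refine le_trans ?_ (le_trans h2 (hstep i (by omega)))
    rw [mul_assoc]
    refine mul_le_mul_of_nonneg_left ?_ (hg 0)
    push_cast
    have h3 : 0 ≤ (i : ℝ) * c := mul_nonneg h0 hc
    have h4 : 0 ≤ (i : ℝ) ^ 2 * c * (((i : ℝ) + 1) * c) := by positivity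
    nlinarith only [h3, h4]

lemma ratio_key {q r k s i ε : ℝ} (hq : 0 < q) (hr : 0 < r) (hqr : q + r = 1) (hi : 0 ≤ i)
    (hs : 0 ≤ s) (hε : 0 ≤ ε) (hX : i ≤ k - s) (hmode : s * r ≤ (k - s + 1) * q)
    (hεX : i + 1 ≤ ε * ((k - s) * q)) :
    (1 - ε) * ((s + i + 1) * r) ≤ (k - (s + i)) * q := by
  rcases le_or_gt 1 ε with h1 | h1
  · exact le_trans (mul_nonpos_of_nonpos_of_nonneg (by linarith) (by positivity))
      (mul_nonneg (by linarith) hq.le)
  · have h2 : (s + i + 1) * r ≤ (k - s + 1) * q + (i + 1) * r := by linarith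
    have h3 := mul_le_mul_of_nonneg_left h2 (show 0 ≤ 1 - ε by linarith)
    have h4 : (k - s + 1) * q + (i + 1) * r - (k - (s + i)) * q = i + 1 := by
      linear_combination (i + 1) * hqr
    have h5 : 0 ≤ ε * ((i + 1) * r) := by positivity
    have h6 : 0 ≤ ε * q := by positivity
    linarith

lemma choose_rel (q r : ℝ) {k t : ℕ} (ht : t < k) :
    ((k.choose (t + 1) : ℝ) * q ^ (t + 1) * r ^ (k - (t + 1))) * (((t : ℝ) + 1) * r)
      = ((k.choose t : ℝ) * q ^ t * r ^ (k - t)) * (((k : ℝ) - t) * q) := by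
  have hc : (k.choose (t + 1) : ℝ) * ((t : ℝ) + 1) = k.choose t * ((k : ℝ) - t) := by
    rw [← Nat.cast_sub ht.le]
    exact_mod_cast Nat.choose_succ_right_eq k t
  rw [pow_succ q, show k - t = (k - (t + 1)) + 1 by omega, pow_succ r]
  linear_combination (q ^ t * q * r ^ (k - (t + 1)) * r) * hc

lemma mode_bound {q r : ℝ} (hq : 0 < q) (hr : 0 < r) (hqr : q + r = 1) {k s : ℕ} (hs : s ≤ k)
    (hk : 2 ≤ (k : ℝ) * r)
    (hmax : ∀ t ≤ k, (k.choose t : ℝ) * q ^ t * r ^ (k - t) ≤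
      (k.choose s : ℝ) * q ^ s * r ^ (k - s)) :
    (s : ℝ) * r ≤ ((k : ℝ) - s + 1) * q ∧ (k : ℝ) * r / 2 ≤ (k : ℝ) - s := by
  have hmode : (s : ℝ) * r ≤ ((k : ℝ) - s + 1) * q := by
    rcases Nat.eq_zero_or_pos s with rfl | hs0
    · simp; positivity
    obtain ⟨t, rfl⟩ : ∃ t, s = t + 1 := ⟨s - 1, by omega⟩
    have hpos : 0 < (k.choose (t + 1) : ℝ) * q ^ (t + 1) * r ^ (k - (t + 1)) := by
      have : (0 : ℝ) < k.choose (t + 1) := by exact_mod_cast Nat.choose_pos hs
      positivity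
    have h3 : (t : ℝ) < k := by exact_mod_cast (show t < k by omega)
    have h4 := mul_le_mul_of_nonneg_right (hmax t (by omega))
      (mul_nonneg (sub_nonneg.mpr h3.le) hq.le)
    rw [← choose_rel q r (by omega : t < k)] at h4
    have h5 := le_of_mul_le_mul_left h4 hpos
    push_cast
    linarith
  refine ⟨hmode, ?_⟩
  have h1 : (s : ℝ) ≤ ((k : ℝ) + 1) * q := by
    linear_combination hmode - (s : ℝ) * hqr
  have h2 : ((k : ℝ) + 1) * q = (k : ℝ) + 1 - ((k : ℝ) + 1) * r := by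
    linear_combination ((k : ℝ) + 1) * hqr
  linarith

lemma binom_big {q r : ℝ} (hq : 0 < q) (hr : 0 < r) (hqr : q + r = 1) {k s : ℕ} (hs : s ≤ k)
    (hk : 2 ≤ (k : ℝ) * r)
    (hmax : ∀ t ≤ k, (k.choose t : ℝ) * q ^ t * r ^ (k - t) ≤
      (k.choose s : ℝ) * q ^ s * r ^ (k - s)) :
    √((k : ℝ) * r * q / 4) * ((k.choose s : ℝ) * q ^ s * r ^ (k - s)) ≤ 2 := by
  obtain ⟨hmode, hX⟩ := mode_bound hq hr hqr hs hk hmax
  set f : ℕ → ℝ := fun t => (k.choose t : ℝ) * q ^ t * r ^ (k - t) with hf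
  have hf0 : ∀ t, 0 ≤ f t := fun t => by simp only [hf]; positivity
  change √((k : ℝ) * r * q / 4) * f s ≤ 2
  have hk0 : (0 : ℝ) < k := by
    rcases Nat.eq_zero_or_pos k with rfl | h
    · norm_num at hk
    · exact_mod_cast h
  set c : ℝ := 2 / (k * r * q) with hc
  have hkrq : 0 < (k : ℝ) * r * q := by positivity
  have hc0 : 0 ≤ c := by positivity
  set n := ⌊√((k : ℝ) * r * q / 4)⌋₊ with hn
  have hn2 : (n : ℝ) ^ 2 ≤ (k : ℝ) * r * q / 4 := by
    have h := Nat.floor_le (Real.sqrt_nonneg ((k : ℝ) * r * q / 4))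
    rw [← hn] at h
    calc (n : ℝ) ^ 2 ≤ √((k : ℝ) * r * q / 4) ^ 2 := pow_le_pow_left₀ (Nat.cast_nonneg n) h 2
      _ = _ := Real.sq_sqrt (by positivity)
  have hnX : (n : ℝ) ≤ (k : ℝ) - s := by
    have h1 : (n : ℝ) ≤ (n : ℝ) ^ 2 := by
      exact_mod_cast Nat.le_self_pow (two_ne_zero) n
    have h3 : (k : ℝ) * r * q ≤ k * r := mul_le_of_le_one_right (by positivity) (by linarith)
    linarith
  have hnc : (n : ℝ) ^ 2 * c ≤ 1 / 2 := by
    calc (n : ℝ) ^ 2 * c ≤ (k : ℝ) * r * q / 4 * c := mul_le_mul_of_nonneg_right hn2 hc0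
      _ = 1 / 2 := by rw [hc]; field_simp; norm_num
  have hlt : ∀ i < n, s + i < k := fun i hi => by
    have h : ((s + i : ℕ) : ℝ) < k := by
      have : (i : ℝ) < n := by exact_mod_cast hi
      push_cast; linarith
    exact_mod_cast h
  have hrun := seq_run (g := fun i => f (s + i)) hc0 (fun i => hf0 _) (by linarith) ?_
  · have hhalf : ((n : ℝ) + 1) * (f s / 2) ≤ 1 := by
      have hsum : ∑ t ∈ Finset.range (k + 1), f t = 1 := by
        have h := add_pow q r k
        rw [hqr, one_pow] at h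
        rw [h]
        exact Finset.sum_congr rfl fun t _ => by simp only [hf]; ring
      refine le_of_le_of_eq ?_ hsum
      calc ((n : ℝ) + 1) * (f s / 2) = ∑ i ∈ Finset.range (n + 1), f s / 2 := by simp
        _ ≤ ∑ i ∈ Finset.range (n + 1), f (s + i) := by
            refine Finset.sum_le_sum fun i hi => le_trans ?_ (hrun i (by simp at hi; omega))
            simp only [add_zero]
            rw [div_eq_mul_inv]
            refine mul_le_mul_of_nonneg_left ?_ (hf0 s)
            have hin : (i : ℝ) ≤ n := by simp at hi; exact_mod_cast hi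
            have : (i : ℝ) ^ 2 * c ≤ (n : ℝ) ^ 2 * c :=
              mul_le_mul_of_nonneg_right (pow_le_pow_left₀ (Nat.cast_nonneg i) hin 2) hc0
            linarith
        _ = ∑ t ∈ (Finset.range (n + 1)).map (addLeftEmbedding s), f t := by
            rw [Finset.sum_map]; rfl
        _ ≤ _ := by
            refine Finset.sum_le_sum_of_subset_of_nonneg (fun t ht => ?_) fun t _ _ => hf0 t
            simp only [Finset.mem_map, Finset.mem_range, addLeftEmbedding_apply] at ht ⊢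
            obtain ⟨i, hi, rfl⟩ := ht
            have : ((n + s : ℕ) : ℝ) ≤ k := by push_cast; linarith
            have : n + s ≤ k := by exact_mod_cast this
            omega
    have h1 := mul_le_mul_of_nonneg_right
      (Nat.lt_floor_add_one √((k : ℝ) * r * q / 4)).le (hf0 s)
    rw [← hn] at h1
    linarith
  · intro i hi
    have hpos : (0 : ℝ) < ((s : ℝ) + i + 1) * r := by positivity
    have h := choose_rel q r (hlt i hi)
    push_cast at h
    change f (s + i) * (1 - ((i : ℝ) + 1) * c) ≤ f (s + (i + 1))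
    refine le_of_mul_le_mul_right ?_ hpos
    change f (s + i) * (1 - ((i : ℝ) + 1) * c) * (((s : ℝ) + i + 1) * r)
      ≤ f (s + i + 1) * (((s : ℝ) + i + 1) * r)
    simp only [hf]
    rw [h, mul_assoc]
    refine mul_le_mul_of_nonneg_left (ratio_key hq hr hqr (Nat.cast_nonneg i) (Nat.cast_nonneg s)
      (by positivity) ?_ hmode ?_) (hf0 _)
    · have : (i : ℝ) < n := by exact_mod_cast hi
      linarith
    · calc (i : ℝ) + 1 = ((i : ℝ) + 1) * c * ((k * r / 2) * q) := by rw [hc]; field_simp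
        _ ≤ _ := mul_le_mul_of_nonneg_left (mul_le_mul_of_nonneg_right hX hq.le) (by positivity)

lemma binom_prob_le {q r : ℝ} (hq : 0 < q) (hr : 0 < r) (hqr : q + r = 1) :
    ∃ C > 0, ∀ k s : ℕ, (k.choose s : ℝ) * q ^ s * r ^ (k - s) ≤ C / √((k : ℝ) + 1) := by
  refine ⟨√(2 / r + 1) + 2 * √(8 / (r * q)), by positivity, fun k s₀ => ?_⟩
  set f : ℕ → ℝ := fun s => (k.choose s : ℝ) * q ^ s * r ^ (k - s) with hf
  have hf0 : ∀ s, 0 ≤ f s := fun s => by simp only [hf]; positivity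
  change f s₀ ≤ _
  rcases lt_or_ge k s₀ with hks | hks
  · simp only [hf, Nat.choose_eq_zero_of_lt hks, Nat.cast_zero, zero_mul]
    positivity
  rw [le_div_iff₀ (by positivity)]
  rcases lt_or_ge ((k : ℝ) * r) 2 with hsmall | hbig
  · have h1 : f s₀ ≤ 1 := by
      have hsum : ∑ t ∈ Finset.range (k + 1), f t = 1 := by
        have h := add_pow q r k
        rw [hqr, one_pow] at h
        rw [h]
        exact Finset.sum_congr rfl fun t _ => by simp only [hf]; ring
      exact hsum ▸ Finset.single_le_sum (fun s _ => hf0 s) (Finset.mem_range.mpr (by omega))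
    have h2 : √((k : ℝ) + 1) ≤ √(2 / r + 1) :=
      Real.sqrt_le_sqrt (by have := (le_div_iff₀ hr).mpr hsmall.le; linarith)
    have h3 : 0 ≤ 2 * √(8 / (r * q)) := by positivity
    have h4 : f s₀ * √((k : ℝ) + 1) ≤ √((k : ℝ) + 1) :=
      mul_le_of_le_one_left (Real.sqrt_nonneg _) h1
    linarith
  obtain ⟨s, hs, hmax⟩ := Finset.exists_max_image (Finset.range (k + 1)) f ⟨0, by simp⟩
  rw [Finset.mem_range] at hs
  have hb : √((k : ℝ) * r * q / 4) * f s ≤ 2 :=
    binom_big hq hr hqr (by omega) hbig fun t ht => hmax t (Finset.mem_range.mpr (by omega))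
  have hk1 : (1 : ℝ) ≤ k := by
    rcases Nat.eq_zero_or_pos k with rfl | h
    · norm_num at hbig
    · exact_mod_cast h
  have h10 : √((k : ℝ) + 1) ≤ √(8 / (r * q)) * √((k : ℝ) * r * q / 4) := by
    rw [← Real.sqrt_mul (by positivity)]
    refine Real.sqrt_le_sqrt ?_
    rw [show 8 / (r * q) * ((k : ℝ) * r * q / 4) = 2 * k by field_simp; ring]
    linarith
  have h11 : 0 ≤ √(2 / r + 1) := Real.sqrt_nonneg _
  have h12 := mul_le_mul_of_nonneg_left hb (Real.sqrt_nonneg (8 / (r * q)))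
  calc f s₀ * √((k : ℝ) + 1) ≤ f s * √((k : ℝ) + 1) :=
        mul_le_mul_of_nonneg_right (hmax s₀ (Finset.mem_range.mpr (by omega))) (Real.sqrt_nonneg _)
    _ ≤ f s * (√(8 / (r * q)) * √((k : ℝ) * r * q / 4)) :=
        mul_le_mul_of_nonneg_left h10 (hf0 s)
    _ ≤ _ := by linarith

lemma binom_weight_le {a b : ℝ≥0∞} (ha : a ≠ 0) (hb : b ≠ 0) (ha' : a ≠ ∞) (hb' : b ≠ ∞) :
    ∃ C > (0 : ℝ), ∀ k s : ℕ, (k.choose s : ℝ≥0∞) * (a ^ s * b ^ (k - s)) ≤
      ENNReal.ofReal (C / √((k : ℝ) + 1)) * (a + b) ^ k := by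
  have hx : 0 < a.toReal := ENNReal.toReal_pos ha ha'
  have hy : 0 < b.toReal := ENNReal.toReal_pos hb hb'
  obtain ⟨C, hC, h⟩ := binom_prob_le (q := a.toReal / (a.toReal + b.toReal))
    (r := b.toReal / (a.toReal + b.toReal)) (by positivity) (by positivity)
    (by field_simp)
  refine ⟨C, hC, fun k s => ?_⟩
  rcases lt_or_ge k s with hks | hks
  · simp [Nat.choose_eq_zero_of_lt hks]
  have hreal : (k.choose s : ℝ) * (a.toReal ^ s * b.toReal ^ (k - s)) ≤
      C / √((k : ℝ) + 1) * (a.toReal + b.toReal) ^ k := by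
    have h2 := h k s
    rw [div_pow, div_pow] at h2
    have hk : (a.toReal + b.toReal) ^ k
        = (a.toReal + b.toReal) ^ s * (a.toReal + b.toReal) ^ (k - s) := by
      rw [← pow_add, Nat.add_sub_cancel' hks]
    rw [← div_le_iff₀ (by positivity), hk]
    refine le_of_eq_of_le ?_ h2
    field_simp
  calc (k.choose s : ℝ≥0∞) * (a ^ s * b ^ (k - s))
      = ENNReal.ofReal ((k.choose s : ℝ) * (a.toReal ^ s * b.toReal ^ (k - s))) := by
        rw [ENNReal.ofReal_mul (by positivity), ENNReal.ofReal_mul (by positivity),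
          ENNReal.ofReal_natCast, ENNReal.ofReal_pow ENNReal.toReal_nonneg,
          ENNReal.ofReal_pow ENNReal.toReal_nonneg, ENNReal.ofReal_toReal ha',
          ENNReal.ofReal_toReal hb']
    _ ≤ ENNReal.ofReal (C / √((k : ℝ) + 1) * (a.toReal + b.toReal) ^ k) :=
        ENNReal.ofReal_le_ofReal hreal
    _ = _ := by
        rw [ENNReal.ofReal_mul (by positivity), ENNReal.ofReal_pow (by positivity),
          ENNReal.ofReal_add ENNReal.toReal_nonneg ENNReal.toReal_nonneg,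
          ENNReal.ofReal_toReal ha', ENNReal.ofReal_toReal hb']

end Vale.Agent.P147
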