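import Vale.Agent.P147.Factor

/-!
P147: signed heights along an axis, first hitting times of levels, and splitting at a fixed time.
-/

open MeasureTheory
open scoped ENNReal

noncomputable section

namespace Vale.Agent.P147

variable {d : ℕ}

/-- The signed coordinate along the step `δ`. -/
def ht (δ : Step d) (x : Pos d) : ℤ := if δ.2 then x δ.1 else -(x δ.1)

/-- The reversed step. -/
def opp (δ : Step d) : Step d := (δ.1, !δ.2)

/-- The height after `n` steps. -/
def hgt (δ : Step d) (η : ℕ → Step d) (n : ℕ) : ℤ := ht δ (pos η n)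

lemma ht_add (δ : Step d) (x y : Pos d) : ht δ (x + y) = ht δ x + ht δ y := by
  unfold ht; split <;> simp [Pi.add_apply] <;> ring

lemma ht_sub (δ : Step d) (x y : Pos d) : ht δ (x - y) = ht δ x - ht δ y := by
  have := ht_add δ (x - y) y
  rw [sub_add_cancel] at this
  omega

@[simp] lemma ht_zero (δ : Step d) : ht δ 0 = 0 := by simp [ht]

lemma ht_opp (δ : Step d) (x : Pos d) : ht (opp δ) x = -ht δ x := by
  rcases δ with ⟨a, b⟩
  cases b <;> simp [ht, opp]

lemma ht_vec_lat {δ e : Step d} (h : e.1 ≠ δ.1) : ht δ (vec e) = 0 := by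
  simp [ht, vec, Pi.single_eq_of_ne h.symm]

lemma ht_vec_self (δ : Step d) : ht δ (vec δ) = 1 := by
  rcases δ with ⟨a, b⟩
  cases b <;> simp [ht, vec]

lemma ht_vec_opp (δ : Step d) : ht δ (vec (opp δ)) = -1 := by
  rcases δ with ⟨a, b⟩
  cases b <;> simp [ht, vec, opp]

lemma ht_vec_le (δ e : Step d) : ht δ (vec e) ≤ 1 := by
  by_cases h : e.1 = δ.1
  · rcases δ with ⟨a, b⟩
    rcases e with ⟨c, f⟩
    obtain rfl : c = a := h
    cases b <;> cases f <;> simp [ht, vec]
  · rw [ht_vec_lat h]; norm_num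

lemma vec_ne_zero (e : Step d) : vec e ≠ 0 := fun h => by
  have := ht_vec_self e
  rw [h, ht_zero] at this
  omega

@[simp] lemma hgt_zero (δ : Step d) (η : ℕ → Step d) : hgt δ η 0 = 0 := by simp [hgt, pos]

lemma hgt_succ (δ : Step d) (η : ℕ → Step d) (n : ℕ) :
    hgt δ η (n + 1) = hgt δ η n + ht δ (vec (η n)) := by
  rw [hgt, pos, ht_add]; rfl

lemma hgt_add (δ : Step d) (η : ℕ → Step d) (n t : ℕ) :
    hgt δ η (n + t) = hgt δ η n + hgt δ (shift n η) t := by
  rw [hgt, pos_add, ht_add]; rfl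

lemma hgt_congr (δ : Step d) {η η' : ℕ → Step d} {n : ℕ} (h : ∀ t < n, η t = η' t) :
    hgt δ η n = hgt δ η' n := by rw [hgt, hgt, pos_congr h]

lemma hgt_le (δ : Step d) (η : ℕ → Step d) (n : ℕ) : hgt δ η n ≤ n := by
  induction n with
  | zero => simp
  | succ n ih =>
    rw [hgt_succ]
    have := ht_vec_le δ (η n)
    push_cast
    omega

/-- The event that level `j` is first reached at time `n`. -/
def Hit (δ : Step d) (j : ℤ) (n : ℕ) : Set (ℕ → Step d) :=
  {η | hgt δ η n = j ∧ ∀ t < n, hgt δ η t < j}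

lemma hit_unique {δ : Step d} {j : ℤ} {n n' : ℕ} {η : ℕ → Step d} (h : η ∈ Hit δ j n)
    (h' : η ∈ Hit δ j n') : n = n' := by
  rcases lt_trichotomy n n' with hlt | rfl | hlt
  · have := h'.2 n hlt
    rw [h.1] at this
    omega
  · rfl
  · have := h.2 n' hlt
    rw [h'.1] at this
    omega

lemma exists_hit (δ : Step d) {η : ℕ → Step d} {j : ℕ} {n : ℕ} (h : (j : ℤ) ≤ hgt δ η n) :
    ∃ p ≤ n, η ∈ Hit δ j p := by
  classical
  have hex : ∃ p, (j : ℤ) ≤ hgt δ η p := ⟨n, h⟩
  refine ⟨Nat.find hex, Nat.find_le h, le_antisymm ?_ (Nat.find_spec hex),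
    fun t ht' => not_le.mp (Nat.find_min hex ht')⟩
  rcases hp : Nat.find hex with _ | p
  · simp
  · have := not_le.mp (Nat.find_min hex (show p < Nat.find hex by omega))
    have := ht_vec_le δ (η p)
    rw [hgt_succ]
    omega

/-- The half-space of nonnegative height. -/
def Up (δ : Step d) : Set (Pos d) := {x | 0 ≤ ht δ x}

/-- The event that the walk never goes below its starting height. -/
def NoBack (δ : Step d) : Set (ℕ → Step d) := Stay (Up δ)

lemma mem_noBack {δ : Step d} {η : ℕ → Step d} : η ∈ NoBack δ ↔ ∀ t, 0 ≤ hgt δ η t := Iff.rfl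

lemma measurableSet_noBack (δ : Step d) : MeasurableSet (NoBack δ) := measurableSet_stay _

lemma measurable_hgt (δ : Step d) (n : ℕ) : Measurable (fun η => hgt δ η n) :=
  (measurable_of_countable (ht δ)).comp (measurable_pos n)

lemma detBy_hit (δ : Step d) (j : ℤ) {n H : ℕ} (h : n ≤ H) : DetBy H (Hit δ j n) := by
  intro η η' he hη
  refine ⟨?_, fun t ht => ?_⟩
  · rw [← hgt_congr δ fun s hs => he s (by omega)]; exact hη.1
  · rw [← hgt_congr δ fun s hs => he s (by omega)]; exact hη.2 t ht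

lemma DetBy.mono {H H' : ℕ} {S : Set (ℕ → Step d)} (hS : DetBy H S) (h : H ≤ H') :
    DetBy H' S := fun η η' he hη => hS η η' (fun t ht => he t (by omega)) hη

lemma detBy_shift_cyl {H L : ℕ} (ρ : ℕ → Step d) :
    DetBy (H + L) (shift H ⁻¹' cyl L ρ) := fun η η' he hη t ht => by
  rw [shift, ← he (H + t) (by omega)]
  exact hη t ht

variable [NeZero d]

/-- A function of the first `H` steps is measurable. -/
lemma measurable_of_det {β : Type*} [MeasurableSpace β] {H : ℕ} {G : (ℕ → Step d) → β}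
    (hG : ∀ η η', (∀ t < H, η t = η' t) → G η = G η') : Measurable G := by
  have h : G = (fun σ : Fin H → Step d => G (ext' σ)) ∘ fun η (t : Fin H) => η t := by
    funext η
    exact hG _ _ fun t ht => by rw [ext'_lt _ ht]
  rw [h]
  exact (measurable_of_countable _).comp (measurable_pi_lambda _ fun t => measurable_pi_apply _)

lemma DetBy.measurableSet {H : ℕ} {S : Set (ℕ → Step d)} (hS : DetBy H S) : MeasurableSet S := by
  classical
  have h : Measurable (fun η => decide (η ∈ S) : (ℕ → Step d) → Bool) := by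
    refine measurable_of_det (H := H) fun η η' he => ?_
    have : η ∈ S ↔ η' ∈ S := ⟨hS η η' he, hS η' η fun t ht => (he t ht).symm⟩
    simp [this]
  have h2 : S = (fun η => decide (η ∈ S) : (ℕ → Step d) → Bool) ⁻¹' {true} := by
    ext η; simp
  rw [h2]
  exact h (MeasurableSet.singleton _)

/-- The integral of a function of the first `H` steps. -/
lemma lintegral_det {μ : Measure (Step d → ℝ)} {H : ℕ} {G : (ℕ → Step d) → ℝ≥0∞}
    (hG : ∀ η η', (∀ t < H, η t = η' t) → G η = G η') :
    ∫⁻ η, G η ∂nu μ = ∑ σ : Fin H → Step d, G (ext' σ) * w μ H (ext' σ) := by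
  classical
  have h : G = fun η => ∑ σ : Fin H → Step d,
      (cyl H (ext' σ)).indicator (fun _ => G (ext' σ)) η := by
    funext η
    rw [Finset.sum_eq_single (fun t : Fin H => η t)]
    · rw [Set.indicator_of_mem fun t ht => by rw [ext'_lt _ ht]]
      exact hG _ _ fun t ht => by rw [ext'_lt _ ht]
    · intro σ _ hne
      refine Set.indicator_of_notMem (fun hmem => hne ?_) _
      funext t
      have := hmem t t.isLt
      rw [ext'_lt _ t.isLt] at this
      exact this.symm
    · simp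
  conv_lhs => rw [h]
  rw [lintegral_finset_sum _ fun σ _ => measurable_const.indicator (measurableSet_cyl _ _)]
  exact Finset.sum_congr rfl fun σ _ => lintegral_indicator_const (measurableSet_cyl _ _) _

variable {μ : Measure (Step d → ℝ)}

/-- A future confined to fresh sites splits off from the event seen so far. -/
theorem split (hμ : Elliptic μ) {H : ℕ} {G : Set (ℕ → Step d)} (hG : DetBy H G) {A : Set (Pos d)}
    (hA : ∀ ξ ∈ G, ∀ t < H, pos ξ t - pos ξ H ∉ A) {F : Set (ℕ → Step d)} (hF : MeasurableSet F) :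
    nu μ (G ∩ shift H ⁻¹' (F ∩ Stay A)) = nu μ G * nu μ (F ∩ Stay A) := by
  have key : (nu μ).restrict (shift H ⁻¹' (F ∩ Stay A)) G = (nu μ (F ∩ Stay A) • nu μ) G := by
    refine measure_eq_of_detBy hG fun ζ hζ => ?_
    rw [Measure.restrict_apply (measurableSet_cyl _ _), Measure.smul_apply, smul_eq_mul,
      factor hμ (hA ζ hζ) hF, mul_comm]
    rfl
  rwa [Measure.restrict_apply hG.measurableSet, Measure.smul_apply, smul_eq_mul, mul_comm] at key

/-- A fixed finite continuation through fresh sites. -/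
theorem split_cyl (hμ : Elliptic μ) {H L : ℕ} {G : Set (ℕ → Step d)} (hG : DetBy H G)
    {ρ : ℕ → Step d} (hρ : ∀ ξ ∈ G, ∀ s < H, ∀ t < L, pos ξ s ≠ pos ξ H + pos ρ t) :
    nu μ (G ∩ shift H ⁻¹' cyl L ρ) = nu μ G * w μ L ρ := by
  have key : (nu μ).restrict (shift H ⁻¹' cyl L ρ) G = (w μ L ρ • nu μ) G := by
    refine measure_eq_of_detBy hG fun ζ hζ => ?_
    rw [Measure.restrict_apply (measurableSet_cyl _ _), Measure.smul_apply, smul_eq_mul,
      cyl_inter_shift, mul_comm]
    exact w_glue hμ (hρ ζ hζ)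
  rwa [Measure.restrict_apply hG.measurableSet, Measure.smul_apply, smul_eq_mul, mul_comm] at key

lemma Rr_ne_zero (hμ : Elliptic μ) (ξ : ℕ → Step d) (t : ℕ) : Rr μ ξ t ≠ 0 :=
  ENNReal.div_ne_zero.mpr ⟨Mo_ne_zero hμ _ _, Mo_ne_top hμ _ _⟩

lemma w_ne_zero (hμ : Elliptic μ) (n : ℕ) (ξ : ℕ → Step d) : w μ n ξ ≠ 0 := by
  rw [w_eq_prod hμ]
  exact Finset.prod_ne_zero_iff.mpr fun t _ => Rr_ne_zero hμ ξ t

lemma w_ne_top (hμ : Elliptic μ) (n : ℕ) (ξ : ℕ → Step d) : w μ n ξ ≠ ∞ := by
  have := isProbabilityMeasure_nu hμ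
  exact measure_ne_top _ _

end Vale.Agent.P147
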