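import Vale.Agent.P147.Esc

/-!
P147: switching at each new level to the opposite behaviour, and the resulting dichotomy.
-/

open MeasureTheory Filter
open scoped ENNReal Topology

noncomputable section

namespace Vale.Agent.P147

variable {d : ℕ}

/-- Two steps up, `l` lateral steps along `j`, one step down. -/
def route (δ : Step d) (j : Fin d) (l t : ℕ) : Step d :=
  if t < 2 then δ else if t < 2 + l then (j, true) else opp δ

lemma route_hgt {δ : Step d} {j : Fin d} (hj : j ≠ δ.1) (l : ℕ) :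
    ∀ t, 2 ≤ t → t ≤ 2 + l → hgt δ (route δ j l) t = 2 := by
  intro t h2
  induction t, h2 using Nat.le_induction with
  | base => intro _; simp [hgt, pos, route, ht_add, ht_vec_self]
  | succ t h2 ih =>
    intro hle
    rw [hgt_succ, ih (by omega), route, if_neg (by omega), if_pos (by omega),
      ht_vec_lat (show ((j, true) : Step d).1 ≠ δ.1 from hj), add_zero]

lemma route_nonneg {δ : Step d} {j : Fin d} (hj : j ≠ δ.1) (l : ℕ) {t : ℕ} (htt : t < l + 3) :
    0 ≤ hgt δ (route δ j l) t := by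
  rcases lt_or_ge t 2 with h | h
  · interval_cases t
    · simp
    · simp [hgt, pos, route, ht_vec_self]
  · rw [route_hgt hj l t h (by omega)]
    norm_num

lemma route_end_hgt {δ : Step d} {j : Fin d} (hj : j ≠ δ.1) (l : ℕ) :
    hgt δ (route δ j l) (l + 3) = 1 := by
  rw [hgt_succ, route_hgt hj l (l + 2) (by omega) (by omega), route, if_neg (by omega),
    if_neg (by omega), ht_vec_opp]
  norm_num

lemma route_end_lat {δ : Step d} {j : Fin d} (hj : j ≠ δ.1) (l : ℕ) :
    pos (route δ j l) (l + 3) j = l := by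
  have hδ : ∀ e : Step d, e.1 = δ.1 → vec e j = 0 := fun e he => by
    rw [vec, he, Pi.single_eq_of_ne hj]
  have key : ∀ u, u ≤ l → pos (route δ j l) (2 + u) j = u := by
    intro u
    induction u with
    | zero => simp [pos, route, hδ δ rfl]
    | succ u ih =>
      intro hu
      rw [← add_assoc, pos, Pi.add_apply, ih (by omega), route, if_neg (by omega),
        if_pos (by omega)]
      simp [vec]
  rw [show l + 3 = (2 + l) + 1 by omega, pos, Pi.add_apply, key l le_rfl, route,
    if_neg (by omega), if_neg (by omega), hδ (opp δ) rfl, add_zero]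

/-- The start of the switched walk when level reached at time `p`. -/
def restart (δ : Step d) (j : Fin d) (η : ℕ → Step d) (p l : ℕ) : Pos d :=
  pos η p + pos (route δ j l) (l + 3)

/-- Sites, relative to the restart, which the switched walk may use. -/
def safe (δ : Step d) (j : Fin d) (η : ℕ → Step d) (p l : ℕ) : Set (Pos d) :=
  {x | 0 ≤ ht (opp δ) x ∧ (∀ t ≤ p, x + restart δ j η p l ≠ pos η t) ∧
    x + restart δ j η p l ≠ pos η p + vec δ}

variable [NeZero d]

/-- The chance that the switched walk avoids the past. -/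
def avoidProb (μ : Measure (Step d → ℝ)) (δ : Step d) (j : Fin d) (η : ℕ → Step d) (p l : ℕ) :
    ℝ≥0∞ :=
  nu μ (Stay (safe δ j η p l))

/-- The avoidance chance at the first visit of level `n`. -/
def levelAvoid (μ : Measure (Step d → ℝ)) (δ : Step d) (j : Fin d) (l n : ℕ) (η : ℕ → Step d) :
    ℝ≥0∞ :=
  ∑' p, (Hit δ (n : ℤ) p).indicator (fun η => avoidProb μ δ j η p l) η

variable {μ : Measure (Step d → ℝ)} {δ : Step d} {j : Fin d}

lemma avoidProb_congr {p l : ℕ} {η η' : ℕ → Step d} (h : ∀ t < p, η t = η' t) :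
    avoidProb μ δ j η p l = avoidProb μ δ j η' p l := by
  have hs : safe δ j η p l = safe δ j η' p l := by
    ext x
    simp only [safe, restart, Set.mem_ofPred_eq, pos_congr h]
    refine and_congr_right fun _ => and_congr_left fun _ => forall₂_congr fun t htt => ?_
    rw [pos_congr fun s hs => h s (by omega)]
  rw [avoidProb, avoidProb, hs]

lemma indicator_avoid_congr (l n p : ℕ) {η η' : ℕ → Step d} (h : ∀ t < p, η t = η' t) :
    (Hit δ (n : ℤ) p).indicator (fun η => avoidProb μ δ j η p l) η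
      = (Hit δ (n : ℤ) p).indicator (fun η => avoidProb μ δ j η p l) η' := by
  classical
  simp only [Set.indicator_apply]
  exact if_congr ⟨detBy_hit δ _ le_rfl η η' h, detBy_hit δ _ le_rfl η' η fun t htt => (h t htt).symm⟩
    (avoidProb_congr h) rfl

lemma measurable_levelAvoid (l n : ℕ) : Measurable (levelAvoid μ δ j l n) :=
  Measurable.ennreal_tsum fun p =>
    measurable_of_det (H := p) fun _ _ h => indicator_avoid_congr l n p h

/-- Following `σ`, then the route, then a walk avoiding the past. -/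
def switchSet (δ : Step d) (j : Fin d) (l p : ℕ) (σ : Fin p → Step d) : Set (ℕ → Step d) :=
  cyl (p + (l + 3)) (glue p (ext' σ) (route δ j l)) ∩
    shift (p + (l + 3)) ⁻¹' (Set.univ ∩ Stay (safe δ j (ext' σ) p l))

lemma measure_switchSet (hμ : Elliptic μ) (hj : j ≠ δ.1) {l p : ℕ} {n : ℕ} {σ : Fin p → Step d}
    (hσ : ext' σ ∈ Hit δ (n : ℤ) p) : nu μ (switchSet δ j l p σ) =
      w μ p (ext' σ) * w μ (l + 3) (route δ j l) * avoidProb μ δ j (ext' σ) p l := by
  set ξ := glue p (ext' σ) (route δ j l) with hξ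
  have hend : pos ξ (p + (l + 3)) = restart δ j (ext' σ) p l := by
    rw [hξ, pos_glue_add]; rfl
  have hfree : ∀ t < p + (l + 3), pos ξ t - pos ξ (p + (l + 3)) ∉ safe δ j (ext' σ) p l := by
    intro t htt hmem
    obtain ⟨h0, h1, h2⟩ := hmem
    rw [hend] at h0 h1 h2
    simp only [sub_add_cancel] at h1 h2
    rcases le_or_gt t p with htp | htp
    · exact h1 t htp (by rw [hξ, pos_glue_le htp])
    · obtain ⟨u, rfl⟩ := Nat.exists_eq_add_of_le htp.le
      rw [hξ, pos_glue_add] at h0 h2
      rcases eq_or_lt_of_le (show 1 ≤ u by omega) with rfl | hu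
      · exact h2 (by simp [pos, route])
      · have h3 := route_hgt (δ := δ) hj l u hu (by omega)
        have h4 := route_end_hgt (δ := δ) hj l
        rw [hgt] at h3 h4
        rw [restart, ht_opp, ht_sub, ht_add, ht_add, h3, h4] at h0
        omega
  rw [switchSet, factor hμ hfree MeasurableSet.univ, Set.univ_inter, avoidProb]
  congr 1
  refine w_glue hμ fun s hs t htt heq => ?_
  have h1 := hσ.2 s hs
  have h2 := route_nonneg (δ := δ) hj l htt
  rw [hgt, heq, ht_add, show ht δ (pos (ext' σ) p) = _ from hσ.1] at h1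
  rw [hgt] at h2
  omega

lemma switchSet_facts (hj : j ≠ δ.1) {l p n : ℕ} {σ : Fin p → Step d}
    (hσ : ext' σ ∈ Hit δ (n : ℤ) p) {η : ℕ → Step d} (h : η ∈ switchSet δ j l p σ) :
    η ∈ Hit δ (n : ℤ) p ∧ η ∈ cyl p (ext' σ) ∧ (∀ t, hgt δ η t ≤ (n : ℤ) + 2) ∧
      hgt δ η (p + 2) = (n : ℤ) + 2 := by
  obtain ⟨hc, -, hstay⟩ := h
  have hcp : η ∈ cyl p (ext' σ) := fun t htt => by rw [hc t (by omega), glue_lt htt]
  have hHit : η ∈ Hit δ (n : ℤ) p :=
    detBy_hit δ _ le_rfl _ _ (fun t htt => (hcp t htt).symm) hσ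
  have hmid : ∀ u, u ≤ l + 3 → hgt δ η (p + u) = (n : ℤ) + hgt δ (route δ j l) u := by
    intro u hu
    rw [hgt_add, hHit.1]
    congr 1
    refine hgt_congr δ fun s hs => ?_
    rw [shift, hc (p + s) (by omega), glue_add]
  refine ⟨hHit, hcp, fun t => ?_, ?_⟩
  · rcases lt_or_ge t p with h1 | h1
    · have := hHit.2 t h1
      omega
    obtain ⟨u, rfl⟩ := Nat.exists_eq_add_of_le h1
    rcases le_or_gt u (l + 3) with h2 | h2
    · rw [hmid u h2]
      rcases lt_or_ge u 2 with h3 | h3
      · have := hgt_le δ (route δ j l) u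
        omega
      · rcases eq_or_lt_of_le h2 with rfl | h4
        · rw [route_end_hgt hj l]; omega
        · rw [route_hgt hj l u h3 (by omega)]
    · obtain ⟨v, rfl⟩ := Nat.exists_eq_add_of_le h2.le
      rw [← add_assoc, hgt_add, hmid (l + 3) le_rfl, route_end_hgt hj l]
      have h5 : 0 ≤ ht (opp δ) (pos (shift (p + (l + 3)) η) v) := (hstay v).1
      rw [ht_opp] at h5
      have h6 : hgt δ (shift (p + (l + 3)) η) v ≤ 0 := by unfold hgt; omega
      omega
  · rw [hmid 2 (by omega), route_hgt hj l 2 le_rfl (by omega)]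

lemma measurableSet_switchSet (l p : ℕ) (σ : Fin p → Step d) :
    MeasurableSet (switchSet δ j l p σ) :=
  (measurableSet_cyl _ _).inter
    (measurable_shift _ (MeasurableSet.univ.inter (measurableSet_stay _)))

lemma levelAvoid_lintegral (hμ : Elliptic μ) (hj : j ≠ δ.1) (l : ℕ) :
    ∫⁻ η, ∑' n, levelAvoid μ δ j l n η ∂nu μ ≠ ∞ := by
  classical
  have := isProbabilityMeasure_nu hμ
  set c := w μ (l + 3) (route δ j l) with hc
  have hc0 : c ≠ 0 := w_ne_zero hμ _ _
  set T : ℕ × ℕ → Set (ℕ → Step d) := fun x =>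
    ⋃ σ ∈ Finset.univ.filter (fun σ : Fin x.2 → Step d => ext' σ ∈ Hit δ (x.1 : ℤ) x.2),
      switchSet δ j l x.2 σ with hT
  have hTm : ∀ x, MeasurableSet (T x) := fun x =>
    Finset.measurableSet_biUnion _ fun σ _ => measurableSet_switchSet _ _ _
  have hdisj : Pairwise (Function.onFun Disjoint T) := by
    rintro ⟨n, p⟩ ⟨n', p'⟩ hne
    refine Set.disjoint_left.mpr fun η hη hη' => hne ?_
    simp only [hT, Set.mem_iUnion, Finset.mem_filter, Finset.mem_univ, true_and,
      exists_prop] at hη hη'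
    obtain ⟨σ, hσ, hη⟩ := hη
    obtain ⟨σ', hσ', hη'⟩ := hη'
    obtain ⟨hh, -, hb, he⟩ := switchSet_facts hj hσ hη
    obtain ⟨hh', -, hb', he'⟩ := switchSet_facts hj hσ' hη'
    have h1 := hb (p' + 2)
    have h2 := hb' (p + 2)
    obtain rfl : n = n' := by omega
    rw [hit_unique hh hh']
  have hTmeas : ∀ x : ℕ × ℕ, c * ∫⁻ η, (Hit δ (x.1 : ℤ) x.2).indicator
      (fun η => avoidProb μ δ j η x.2 l) η ∂nu μ = nu μ (T x) := by
    rintro ⟨n, p⟩
    rw [lintegral_det (H := p) fun _ _ h => indicator_avoid_congr l n p h, hT,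
      measure_biUnion_finset ?_ fun σ _ => measurableSet_switchSet _ _ _, Finset.mul_sum,
      Finset.sum_filter]
    · refine Finset.sum_congr rfl fun σ _ => ?_
      rw [Set.indicator_apply]
      split_ifs with h
      · rw [measure_switchSet hμ hj h, hc]; ring
      · simp
    · intro σ hσ σ' hσ' hne
      simp only [Finset.coe_filter, Finset.mem_univ, true_and, Set.mem_ofPred_eq] at hσ hσ'
      refine Set.disjoint_left.mpr fun η hη hη' => hne ?_
      funext t
      have h1 := (switchSet_facts hj hσ hη).2.1 t t.isLt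
      have h2 := (switchSet_facts hj hσ' hη').2.1 t t.isLt
      rw [ext'_lt _ t.isLt] at h1 h2
      exact h1.symm.trans h2
  have hle : c * ∫⁻ η, ∑' n, levelAvoid μ δ j l n η ∂nu μ ≤ 1 := by
    rw [lintegral_tsum fun n => (measurable_levelAvoid l n).aemeasurable, ← ENNReal.tsum_mul_left]
    refine le_of_eq_of_le ?_ (prob_le_one (μ := nu μ) (s := ⋃ x, T x))
    rw [measure_iUnion hdisj hTm, ENNReal.tsum_prod']
    refine tsum_congr fun n => ?_
    simp only [levelAvoid]
    rw [lintegral_tsum fun p => (measurable_of_det (H := p)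
      fun _ _ h => indicator_avoid_congr l n p h).aemeasurable, ← ENNReal.tsum_mul_left]
    exact tsum_congr fun p => hTmeas (n, p)
  exact fun h => by
    rw [h, ENNReal.mul_top hc0] at hle
    exact ENNReal.one_ne_top (top_le_iff.mp hle)

lemma levelAvoid_ae_finite (hμ : Elliptic μ) (hj : j ≠ δ.1) (l : ℕ) :
    ∀ᵐ η ∂nu μ, ∑' n, levelAvoid μ δ j l n η ≠ ∞ := by
  filter_upwards [ae_lt_top (Measurable.ennreal_tsum fun n => measurable_levelAvoid l n)
    (levelAvoid_lintegral hμ hj l)] with η hη using hη.ne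

lemma sum_indicator_gate (f : ℕ → ℝ≥0∞) (eps : ℝ≥0∞) (N : ℕ) :
    ∑ i ∈ Finset.range N, (if ∑ s ∈ Finset.range (i + 1), f s ≤ eps then f i else 0) ≤ eps := by
  induction N with
  | zero => simp
  | succ N ih =>
    rw [Finset.sum_range_succ]
    split_ifs with h
    · refine le_trans ?_ h
      rw [Finset.sum_range_succ f]
      exact add_le_add (Finset.sum_le_sum fun i _ => by split_ifs <;> simp) le_rfl
    · simpa using ih

/-- The events of the switched walk used for avoidance: summable concentration with small tail. -/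
def SmallTail (C : ℝ) (δ : Step d) (m₀ : ℕ) (eps : ℝ≥0∞) : Set (ℕ → Step d) :=
  NoBack δ ∩ {η | ∑' s, psi C δ (m₀ + 1 + s) η ≤ eps}

lemma smallTail_meet (hμ : Elliptic μ) {C : ℝ}
    (hconc : ∀ (δ : Step d) (m : ℕ) (g : (ℕ → Step d) → ℝ≥0∞),
      (∀ η η', Like δ m η η' → g η = g η') → ∀ v : Pos d,
      ∫⁻ η, {η : ℕ → Step d | pos η m = v}.indicator g η ∂nu μ ≤
        ∫⁻ η, {η : ℕ → Step d | hgt δ η m = ht δ v}.indicator (fun η => g η * psi C δ m η) η
          ∂nu μ)
    (δ : Step d) (m₀ : ℕ) (eps : ℝ≥0∞) (M J : ℕ) (x : ℕ × ℕ → Pos d)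
    (hinj : Set.InjOn x ↑(Finset.range M ×ˢ Finset.Icc 1 J))
    (hlev : ∀ l, Set.InjOn (fun n => ht δ (x (n, l))) ↑(Finset.range M)) :
    ∑ i ∈ Finset.range M ×ˢ Finset.Icc 1 J,
        ∑' m, nu μ (SmallTail C δ m₀ eps ∩ {η | pos η m = x i}) ≤
      ((m₀ : ℝ≥0∞) + 1) + (J : ℝ≥0∞) * eps := by
  classical
  have := isProbabilityMeasure_nu hμ
  rw [← Summable.tsum_finsetSum fun i _ => ENNReal.summable,
    ← ENNReal.summable.sum_add_tsum_nat_add' (k := m₀ + 1)]
  refine add_le_add ?_ ?_
  · refine le_trans (Finset.sum_le_card_nsmul _ _ 1 fun m _ => ?_) (by simp)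
    calc ∑ i ∈ Finset.range M ×ˢ Finset.Icc 1 J, nu μ (SmallTail C δ m₀ eps ∩ {η | pos η m = x i})
        ≤ ∑ i ∈ Finset.range M ×ˢ Finset.Icc 1 J, nu μ {η | pos η m = x i} :=
          Finset.sum_le_sum fun i _ => measure_mono Set.inter_subset_right
      _ = nu μ (⋃ i ∈ Finset.range M ×ˢ Finset.Icc 1 J, {η | pos η m = x i}) := by
          refine (measure_biUnion_finset ?_ fun i _ => ?_).symm
          · intro i hi i' hi' hne
            refine Set.disjoint_left.mpr fun η h1 h2 => hne (hinj hi hi' ?_)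
            simp only [Set.mem_ofPred_eq] at h1 h2
            rw [← h1, h2]
          · exact measurable_pos m (MeasurableSet.singleton _)
      _ ≤ 1 := prob_le_one
  · set g : ℕ → (ℕ → Step d) → ℝ≥0∞ := fun s η =>
      if ∑ r ∈ Finset.range (s + 1), psi C δ (m₀ + 1 + r) η ≤ eps then 1 else 0 with hg
    have hgl : ∀ s η η', Like δ (m₀ + 1 + s) η η' → g s η = g s η' := fun s η η' h => by
      simp only [hg]
      rw [Finset.sum_congr rfl fun r hr =>
        (h.mono (show m₀ + 1 + r ≤ m₀ + 1 + s by simp at hr; omega)).psi_eq C]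
    have hgm : ∀ s, Measurable fun η => g s η * psi C δ (m₀ + 1 + s) η := fun s =>
      measurable_of_det (H := m₀ + 1 + s) fun η η' h => by
        rw [hgl s η η' (like_of_agree h), (like_of_agree h).psi_eq C]
    have hterm : ∀ s, ∑ i ∈ Finset.range M ×ˢ Finset.Icc 1 J,
        nu μ (SmallTail C δ m₀ eps ∩ {η | pos η (s + (m₀ + 1)) = x i}) ≤
        (J : ℝ≥0∞) * ∫⁻ η, g s η * psi C δ (m₀ + 1 + s) η ∂nu μ := by
      intro s
      rw [add_comm s, Finset.sum_product_right]
      refine le_trans (Finset.sum_le_card_nsmul _ _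
        (∫⁻ η, g s η * psi C δ (m₀ + 1 + s) η ∂nu μ) fun l _ => ?_) ?_
      · calc ∑ n ∈ Finset.range M, nu μ (SmallTail C δ m₀ eps ∩ {η | pos η (m₀ + 1 + s) = x (n, l)})
            ≤ ∑ n ∈ Finset.range M, ∫⁻ η, {η : ℕ → Step d | hgt δ η (m₀ + 1 + s) =
                ht δ (x (n, l))}.indicator (fun η => g s η * psi C δ (m₀ + 1 + s) η) η ∂nu μ := by
              refine Finset.sum_le_sum fun n _ => le_trans ?_ (hconc δ _ (g s) (hgl s) _)
              refine le_trans ?_ (lintegral_mono (f := (SmallTail C δ m₀ eps ∩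
                {η | pos η (m₀ + 1 + s) = x (n, l)}).indicator 1) fun η => ?_)
              · refine le_of_eq (lintegral_indicator_one ?_).symm
                exact ((measurableSet_noBack δ).inter (measurableSet_le (Measurable.ennreal_tsum
                  fun r => measurable_psi _ _ _) measurable_const)).inter
                  (measurable_pos _ (MeasurableSet.singleton _))
              · by_cases h : η ∈ SmallTail C δ m₀ eps ∩ {η | pos η (m₀ + 1 + s) = x (n, l)}
                · rw [Set.indicator_of_mem h,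
                    Set.indicator_of_mem (show η ∈ {η : ℕ → Step d | pos η (m₀ + 1 + s) = x (n, l)}
                      from h.2)]
                  simp only [hg, Pi.one_apply]
                  rw [if_pos (le_trans (ENNReal.sum_le_tsum _) h.1.2)]
                · rw [Set.indicator_of_notMem h]; exact zero_le
          _ = ∫⁻ η, ∑ n ∈ Finset.range M, {η : ℕ → Step d | hgt δ η (m₀ + 1 + s) =
                ht δ (x (n, l))}.indicator (fun η => g s η * psi C δ (m₀ + 1 + s) η) η ∂nu μ := by
              refine (lintegral_finsetSum _ fun n _ => (hgm s).indicator ?_).symm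
              exact measurable_hgt δ (m₀ + 1 + s) (MeasurableSet.singleton (ht δ (x (n, l))))
          _ ≤ _ := by
              refine lintegral_mono fun η => ?_
              by_cases h : ∃ n ∈ Finset.range M, hgt δ η (m₀ + 1 + s) = ht δ (x (n, l))
              · obtain ⟨n, hn, he⟩ := h
                rw [Finset.sum_eq_single n]
                · exact Set.indicator_le_self _ _ η
                · intro n' hn' hne
                  refine Set.indicator_of_notMem (fun he' => hne (hlev l hn' hn ?_)) _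
                  simp only [Set.mem_ofPred_eq] at he'
                  simp only
                  rw [← he', he]
                · exact fun h => absurd hn h
              · push Not at h
                rw [Finset.sum_eq_zero fun n hn =>
                  Set.indicator_of_notMem (by simpa using h n hn) _]
                exact zero_le
      · simp
    refine le_trans (ENNReal.tsum_le_tsum hterm) ?_
    rw [ENNReal.tsum_mul_left, ← lintegral_tsum fun s => (hgm s).aemeasurable]
    refine mul_le_mul' le_rfl (le_trans (lintegral_mono (g := fun _ => eps) fun η => ?_)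
      (le_of_eq (by simp)))
    rw [ENNReal.tsum_eq_iSup_nat]
    refine iSup_le fun N => le_trans (le_of_eq ?_)
      (sum_indicator_gate (fun r => psi C δ (m₀ + 1 + r) η) eps N)
    refine Finset.sum_congr rfl fun s _ => ?_
    simp only [hg]
    split_ifs <;> simp

lemma avoid_lower (hμ : Elliptic μ) {C : ℝ}
    (hconc : ∀ (δ : Step d) (m : ℕ) (g : (ℕ → Step d) → ℝ≥0∞),
      (∀ η η', Like δ m η η' → g η = g η') → ∀ v : Pos d,
      ∫⁻ η, {η : ℕ → Step d | pos η m = v}.indicator g η ∂nu μ ≤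
        ∫⁻ η, {η : ℕ → Step d | hgt δ η m = ht δ v}.indicator (fun η => g η * psi C δ m η) η
          ∂nu μ)
    (hj : j ≠ δ.1) (m₀ : ℕ) (eps : ℝ≥0∞) (J : ℕ) {η : ℕ → Step d} {M T : ℕ}
    (hT : η ∈ Hit δ (M : ℤ) T) :
    ((M * J : ℕ) : ℝ≥0∞) * nu μ (SmallTail C (opp δ) m₀ eps) ≤
      ∑ l ∈ Finset.Icc 1 J, ∑' n, levelAvoid μ δ j l n η +
        ((T + 1 + M : ℕ) : ℝ≥0∞) * (((m₀ : ℝ≥0∞) + 1) + (J : ℝ≥0∞) * eps) := by
  classical
  have hex : ∀ n, n < M → ∃ p ≤ T, η ∈ Hit δ (n : ℤ) p := fun n hn => by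
    have := hT.1
    exact exists_hit δ (j := n) (n := T) (η := η) (by omega)
  choose! p hp hhit using hex
  set F := (Finset.range (T + 1)).image (pos η) ∪
    (Finset.range M).image (fun n => pos η (p n) + vec δ) with hF
  have hFcard : F.card ≤ T + 1 + M := by
    refine le_trans (Finset.card_union_le _ _) (add_le_add ?_ ?_)
    · exact Finset.card_image_le.trans (Finset.card_range _).le
    · exact Finset.card_image_le.trans (Finset.card_range _).le
  set y : ℕ × ℕ → Pos d := fun i => restart δ j η (p i.1) i.2 with hy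
  have hyht : ∀ n, n < M → ∀ l, ht δ (y (n, l)) = (n : ℤ) + 1 := fun n hn l => by
    have h1 := (hhit n hn).1
    have h2 := route_end_hgt (δ := δ) hj l
    rw [hgt] at h1 h2
    simp only [hy, restart]
    rw [ht_add, h1, h2]
  have hlow : ∀ i ∈ Finset.range M ×ˢ Finset.Icc 1 J, nu μ (SmallTail C (opp δ) m₀ eps) ≤
      levelAvoid μ δ j i.2 i.1 η +
        ∑ v ∈ F, ∑' m, nu μ (SmallTail C (opp δ) m₀ eps ∩ {ζ | pos ζ m = v - y i}) := by
    rintro ⟨n, l⟩ hi
    rw [Finset.mem_product, Finset.mem_range] at hi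
    refine le_trans (measure_mono (t := Stay (safe δ j η (p n) l) ∪ ⋃ v ∈ F, ⋃ m,
      (SmallTail C (opp δ) m₀ eps ∩ {ζ | pos ζ m = v - y (n, l)})) fun ζ hζ => ?_) ?_
    · by_cases h : ∀ t, pos ζ t ∈ safe δ j η (p n) l
      · exact Or.inl h
      · push Not at h
        obtain ⟨t, htmem⟩ := h
        have hnb : 0 ≤ ht (opp δ) (pos ζ t) := hζ.1 t
        simp only [safe, Set.mem_ofPred_eq, not_and_or, not_le] at htmem
        right
        simp only [Set.mem_iUnion, exists_prop]
        rcases htmem with h | h | h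
        · omega
        · push Not at h
          obtain ⟨u, hu, heq⟩ := h
          exact ⟨pos η u, Finset.mem_union_left _ (Finset.mem_image_of_mem _
            (Finset.mem_range.mpr (by have := hp n hi.1; omega))), t, hζ,
            by simp [hy, ← heq]⟩
        · rw [not_not] at h
          exact ⟨_, Finset.mem_union_right _ (Finset.mem_image_of_mem
            (fun n => pos η (p n) + vec δ) (Finset.mem_range.mpr hi.1)), t, hζ,
            by simp [hy, ← h]⟩
    · refine le_trans (measure_union_le _ _) (add_le_add ?_ ?_)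
      · refine le_of_eq_of_le ?_ (ENNReal.le_tsum (p n))
        rw [Set.indicator_of_mem (hhit n hi.1)]
        rfl
      · exact le_trans (measure_biUnion_finset_le _ _)
          (Finset.sum_le_sum fun v _ => measure_iUnion_le _)
  calc ((M * J : ℕ) : ℝ≥0∞) * nu μ (SmallTail C (opp δ) m₀ eps)
      = ∑ i ∈ Finset.range M ×ˢ Finset.Icc 1 J, nu μ (SmallTail C (opp δ) m₀ eps) := by
        simp
    _ ≤ ∑ i ∈ Finset.range M ×ˢ Finset.Icc 1 J, levelAvoid μ δ j i.2 i.1 η +
        ∑ v ∈ F, ∑ i ∈ Finset.range M ×ˢ Finset.Icc 1 J,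
          ∑' m, nu μ (SmallTail C (opp δ) m₀ eps ∩ {ζ | pos ζ m = v - y i}) := by
        rw [Finset.sum_comm (s := F), ← Finset.sum_add_distrib]
        exact Finset.sum_le_sum hlow
    _ ≤ _ := by
        refine add_le_add ?_ ?_
        · rw [Finset.sum_product_right]
          exact Finset.sum_le_sum fun l _ => ENNReal.sum_le_tsum _
        · refine le_trans (Finset.sum_le_card_nsmul _ _ _ fun v _ =>
            smallTail_meet hμ hconc (opp δ) m₀ eps M J (fun i => v - y i) ?_ ?_) ?_
          · rintro ⟨n, l⟩ hi ⟨n', l'⟩ hi' he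
            simp only [Finset.coe_product, Set.mem_prod, Finset.coe_range, Set.mem_Iio] at hi hi'
            have he' : y (n, l) = y (n', l') := sub_right_injective he
            have h1 := congrArg (ht δ) he'
            rw [hyht n hi.1, hyht n' hi'.1] at h1
            obtain rfl : n = n' := by omega
            simp only [hy, restart, add_right_inj] at he'
            have h2 := congrFun he' j
            rw [route_end_lat hj, route_end_lat hj] at h2
            obtain rfl : l = l' := by omega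
            rfl
          · intro l n hn n' hn' he
            simp only [Finset.coe_range, Set.mem_Iio] at hn hn'
            simp only [ht_sub, ht_opp, hyht n hn, hyht n' hn'] at he
            omega
          · rw [nsmul_eq_mul]
            exact mul_le_mul' (Nat.cast_le.mpr hFcard) le_rfl

/-- Linear progress along `δ` on infinitely many times is incompatible with fast escape backwards. -/
theorem dichotomy (hμ : Elliptic μ) (hd : 2 ≤ d) {α : ℝ} (hα : 2 < α * ((d : ℝ) - 1))
    (δ : Step d) (hesc : 0 < nu μ (Esc (opp δ) α)) :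
    ∀ᵐ η ∂nu μ, ¬ ∃ c > (0 : ℝ), ∃ᶠ n : ℕ in atTop, c * (n : ℝ) ≤ hgt δ η n := by
  obtain ⟨C, hC, hconc⟩ := concentration hμ
  obtain ⟨j, hj⟩ : ∃ j : Fin d, j ≠ δ.1 := by
    have : Nontrivial (Fin d) := Fin.nontrivial_iff_two_le.mpr hd
    exact exists_ne δ.1
  have := isProbabilityMeasure_nu hμ
  set e := nu μ {η | η ∈ NoBack (opp δ) ∧ ∑' m, psi C (opp δ) m η ≠ ∞} with he
  have he0 : 0 < e := summable_psi hμ hα hesc hC
  have htail : ∀ eps : ℝ≥0∞, eps ≠ 0 → ∃ m₀, e / 2 < nu μ (SmallTail C (opp δ) m₀ eps) := by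
    intro eps heps
    have hmono : Monotone (fun m₀ => SmallTail C (opp δ) m₀ eps) := by
      intro a b hab η hη
      refine ⟨hη.1, le_trans (le_of_eq_of_le (tsum_congr fun s => ?_)
        (ENNReal.tsum_comp_le_tsum_of_injective (add_right_injective (b - a))
          (fun s => psi C (opp δ) (a + 1 + s) η))) hη.2⟩
      congr 1
      omega
    have hsub : {η | η ∈ NoBack (opp δ) ∧ ∑' m, psi C (opp δ) m η ≠ ∞} ⊆
        ⋃ m₀, SmallTail C (opp δ) m₀ eps := fun η ⟨h1, h2⟩ => by
      obtain ⟨N, hN⟩ := eventually_atTop.mp ((ENNReal.tendsto_sum_nat_add _ h2).eventually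
        (eventually_le_nhds (pos_iff_ne_zero.mpr heps)))
      refine Set.mem_iUnion.mpr ⟨N, h1, le_of_eq_of_le (tsum_congr fun s => ?_)
        (hN (N + 1) (by omega))⟩
      congr 1
      omega
    have h1 : e / 2 < ⨆ m₀, nu μ (SmallTail C (opp δ) m₀ eps) := by
      rw [← hmono.measure_iUnion]
      exact lt_of_lt_of_le (ENNReal.half_lt_self he0.ne' (measure_ne_top _ _)) (measure_mono hsub)
    exact lt_iSup_iff.mp h1
  filter_upwards [ae_all_iff.mpr fun l => levelAvoid_ae_finite hμ hj l] with η hη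
  rintro ⟨c, hc, hfreq⟩
  set A : ℕ := ⌈2 / c⌉₊ + 2 with hA
  have heT : (e / 2).toReal > 0 := ENNReal.toReal_pos (ENNReal.half_pos he0.ne').ne'
    (ENNReal.div_ne_top (measure_ne_top _ _) two_ne_zero)
  set e' : ℝ := (e / 2).toReal with he'
  have hA0 : (0 : ℝ) < A := by positivity
  set eps : ℝ := e' / (4 * A) with heps
  have heps0 : 0 < eps := by positivity
  obtain ⟨m₀, hm₀⟩ := htail (ENNReal.ofReal eps) (ENNReal.ofReal_pos.mpr heps0).ne'
  set J : ℕ := ⌈((m₀ : ℝ) + 1) * (4 * A) / e'⌉₊ with hJ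
  have hJ0 : (0 : ℝ) < J := by
    have : 0 < J := Nat.ceil_pos.mpr (by positivity)
    exact_mod_cast this
  set S := ∑ l ∈ Finset.Icc 1 J, ∑' n, levelAvoid μ δ j l n η with hS
  have hSt : S ≠ ∞ := ENNReal.sum_ne_top.mpr fun l _ => hη l
  obtain ⟨M₁, hM₁⟩ := exists_nat_gt (2 * S.toReal / ((J : ℝ) * e'))
  obtain ⟨n, hn, hbig⟩ := frequently_atTop.mp hfreq (⌈((M₁ : ℝ) + 2) / c⌉₊ + 1)
  have hcn : (M₁ : ℝ) + 2 ≤ c * n := by
    have h1 : ((M₁ : ℝ) + 2) / c ≤ n := le_trans (Nat.le_ceil _) (by exact_mod_cast (by omega :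
      ⌈((M₁ : ℝ) + 2) / c⌉₊ ≤ n))
    rw [div_le_iff₀ hc] at h1
    linarith
  set M := ⌊c * (n : ℝ)⌋₊ with hM
  have hMle : (M : ℝ) ≤ c * n := Nat.floor_le (by positivity)
  have hMlt : c * (n : ℝ) < M + 1 := Nat.lt_floor_add_one _
  obtain ⟨T, hTn, hT⟩ := exists_hit δ (η := η) (j := M) (n := n) (by
    have : ((M : ℤ) : ℝ) ≤ (hgt δ η n : ℝ) := by push_cast; linarith
    exact_mod_cast this)
  have hM1 : (M₁ : ℝ) + 1 < M := by linarith
  have hTA : ((T + 1 + M : ℕ) : ℝ) ≤ A * M := by
    have h1 : (T : ℝ) ≤ n := by exact_mod_cast hTn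
    have h2 : (n : ℝ) ≤ (M + 1) / c := by rw [le_div_iff₀ hc]; linarith
    have h3 : 2 / c ≤ (⌈2 / c⌉₊ : ℝ) := Nat.le_ceil _
    have hM1' : (1 : ℝ) ≤ M := by linarith [Nat.cast_nonneg (α := ℝ) M₁]
    have h4 : ((M : ℝ) + 1) / c ≤ 2 / c * M := by
      rw [div_mul_eq_mul_div]
      exact div_le_div_of_nonneg_right (by linarith) hc.le
    have h5 := mul_le_mul_of_nonneg_right h3 (Nat.cast_nonneg (α := ℝ) M)
    rw [hA]
    push_cast
    linarith
  have key := avoid_lower hμ hconc hj m₀ (ENNReal.ofReal eps) J hT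
  have key2 : ((M * J : ℕ) : ℝ≥0∞) * (e / 2) ≤ S + ((T + 1 + M : ℕ) : ℝ≥0∞) *
      (((m₀ : ℝ≥0∞) + 1) + (J : ℝ≥0∞) * ENNReal.ofReal eps) :=
    le_trans (mul_le_mul' le_rfl hm₀.le) key
  have hne : ((T + 1 + M : ℕ) : ℝ≥0∞) *
      (((m₀ : ℝ≥0∞) + 1) + (J : ℝ≥0∞) * ENNReal.ofReal eps) ≠ ∞ := by finiteness
  have key3 := ENNReal.toReal_mono (ENNReal.add_ne_top.mpr ⟨hSt, hne⟩) key2
  rw [ENNReal.toReal_add hSt hne, ENNReal.toReal_mul, ENNReal.toReal_mul,
    ENNReal.toReal_add (by finiteness) (by finiteness), ENNReal.toReal_add (by finiteness)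
      (by finiteness), ENNReal.toReal_mul, ENNReal.toReal_ofReal heps0.le, ← he'] at key3
  simp only [ENNReal.toReal_natCast, ENNReal.toReal_one] at key3
  have h6 : ((m₀ : ℝ) + 1) * (4 * A) / e' ≤ J := Nat.le_ceil _
  rw [div_le_iff₀ heT] at h6
  have h7 : (J : ℝ) * eps * (4 * A) = J * e' := by rw [heps]; field_simp
  have hin : 0 ≤ ((m₀ : ℝ) + 1) + J * eps := by positivity
  have h8 : ((T + 1 + M : ℕ) : ℝ) * (((m₀ : ℝ) + 1) + J * eps) ≤
      A * M * (((m₀ : ℝ) + 1) + J * eps) := mul_le_mul_of_nonneg_right hTA hin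
  have h9 : A * (((m₀ : ℝ) + 1) + J * eps) ≤ J * e' / 2 := by linarith
  have h10 := mul_le_mul_of_nonneg_left h9 (Nat.cast_nonneg (α := ℝ) M)
  rw [div_lt_iff₀ (by positivity)] at hM₁
  have h11 : (M₁ : ℝ) * ((J : ℝ) * e') < M * ((J : ℝ) * e') :=
    mul_lt_mul_of_pos_right (by linarith) (by positivity)
  push_cast at key3 h8
  linarith

end Vale.Agent.P147
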