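import Vale.Agent.P147.Pattern

/-!
P147: escape at polynomial speed makes the concentration factors summable.
-/

open MeasureTheory Filter
open scoped ENNReal Topology

noncomputable section

namespace Vale.Agent.P147

variable {d : ℕ}

/-- Escape along `δ` at least at speed `n ^ α`. -/
def Esc (δ : Step d) (α : ℝ) : Set (ℕ → Step d) :=
  {η | ∃ c > (0 : ℝ), ∀ᶠ n : ℕ in atTop, c * (n : ℝ) ^ α ≤ hgt δ η n}

variable {δ : Step d} {α : ℝ}

lemma tendsto_mul_rpow {c : ℝ} (hc : 0 < c) (hα : 0 < α) :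
    Tendsto (fun n : ℕ => c * (n : ℝ) ^ α) atTop atTop :=
  ((tendsto_rpow_atTop hα).comp tendsto_natCast_atTop_atTop).const_mul_atTop hc

lemma esc_shift (hα : 0 < α) {η : ℕ → Step d} (h : η ∈ Esc δ α) (t : ℕ) :
    shift t η ∈ Esc δ α := by
  obtain ⟨c, hc, hev⟩ := h
  refine ⟨c / 2, by positivity, ?_⟩
  filter_upwards [(tendsto_add_atTop_nat t).eventually hev,
    (tendsto_mul_rpow (half_pos hc) hα).eventually_ge_atTop (hgt δ η t : ℝ)] with u hu hbig
  have h1 : (u : ℝ) ^ α ≤ ((u + t : ℕ) : ℝ) ^ α :=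
    Real.rpow_le_rpow (Nat.cast_nonneg u) (by exact_mod_cast Nat.le_add_right u t) hα.le
  have h2 := mul_le_mul_of_nonneg_left h1 hc.le
  rw [add_comm u t] at hu h2
  rw [hgt_add] at hu
  push_cast at hu h2 ⊢
  linarith

lemma esc_of_shift (hα : 0 < α) {η : ℕ → Step d} {t : ℕ} (h : shift t η ∈ Esc δ α) :
    η ∈ Esc δ α := by
  obtain ⟨c, hc, hev⟩ := h
  have hc' : 0 < c / 2 ^ α / 2 := by positivity
  refine ⟨c / 2 ^ α / 2, hc', ?_⟩
  filter_upwards [(tendsto_sub_atTop_nat t).eventually hev, eventually_ge_atTop (2 * t),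
    (tendsto_mul_rpow hc' hα).eventually_ge_atTop (-(hgt δ η t : ℝ))] with n hn hn2 hbig
  obtain ⟨u, rfl⟩ := Nat.exists_eq_add_of_le (show t ≤ n by omega)
  rw [Nat.add_sub_cancel_left] at hn
  have h1 : (((t + u : ℕ) : ℝ) / 2) ^ α ≤ (u : ℝ) ^ α := by
    refine Real.rpow_le_rpow (by positivity) ?_ hα.le
    rw [div_le_iff₀ two_pos]
    exact_mod_cast (show t + u ≤ u * 2 by omega)
  rw [Real.div_rpow (by positivity) zero_le_two] at h1
  have h2 := mul_le_mul_of_nonneg_left h1 hc.le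
  have h3 : c * (((t + u : ℕ) : ℝ) ^ α / 2 ^ α) = c / 2 ^ α * ((t + u : ℕ) : ℝ) ^ α := by ring
  rw [h3] at h2
  rw [hgt_add]
  push_cast at hbig h2 ⊢
  linarith

lemma esc_tendsto (hα : 0 < α) {η : ℕ → Step d} (h : η ∈ Esc δ α) :
    Tendsto (fun n => (hgt δ η n : ℝ)) atTop atTop := by
  obtain ⟨c, hc, hev⟩ := h
  exact tendsto_atTop_mono' _ hev (tendsto_mul_rpow hc hα)

lemma esc_subset_unbdd (hα : 0 < α) : Esc δ α ⊆ Unbdd δ := fun η h j => by
  obtain ⟨n, hn⟩ := ((esc_tendsto hα h).eventually_ge_atTop (j : ℝ)).exists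
  exact ⟨n, by exact_mod_cast hn⟩

lemma esc_min (hα : 0 < α) {η : ℕ → Step d} (h : η ∈ Esc δ α) :
    ∃ t, shift t η ∈ NoBack δ := by
  obtain ⟨N, hN⟩ := eventually_atTop.mp ((esc_tendsto hα h).eventually_ge_atTop 0)
  obtain ⟨t, -, ht'⟩ := Finset.exists_min_image (Finset.range (N + 1)) (hgt δ η) ⟨0, by simp⟩
  refine ⟨t, mem_noBack.mpr fun u => ?_⟩
  have h1 := hgt_add δ η t u
  have h0 := ht' 0 (by simp)
  rw [hgt_zero] at h0
  rcases lt_or_ge (t + u) (N + 1) with hu | hu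
  · have := ht' (t + u) (Finset.mem_range.mpr hu)
    omega
  · have : (0 : ℤ) ≤ hgt δ η (t + u) := by exact_mod_cast hN (t + u) (by omega)
    omega

lemma measurableSet_esc : MeasurableSet (Esc δ α) := by
  have : Esc δ α = ⋃ k : ℕ, ⋃ N : ℕ, ⋂ n, ⋂ (_ : N ≤ n),
      (fun η => hgt δ η n) ⁻¹' {z : ℤ | 1 / ((k : ℝ) + 1) * (n : ℝ) ^ α ≤ z} := by
    ext η
    simp only [Esc, Set.mem_ofPred_eq, Set.mem_iUnion, Set.mem_iInter, Set.mem_preimage]
    constructor
    · rintro ⟨c, hc, hev⟩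
      obtain ⟨k, hk⟩ := exists_nat_one_div_lt hc
      obtain ⟨N, hN⟩ := eventually_atTop.mp hev
      exact ⟨k, N, fun n hn => le_trans
        (mul_le_mul_of_nonneg_right hk.le (Real.rpow_nonneg (Nat.cast_nonneg n) _)) (hN n hn)⟩
    · rintro ⟨k, N, hN⟩
      exact ⟨1 / ((k : ℝ) + 1), by positivity, eventually_atTop.mpr ⟨N, hN⟩⟩
  rw [this]
  exact MeasurableSet.iUnion fun k => MeasurableSet.iUnion fun N => MeasurableSet.iInter fun n =>
    MeasurableSet.iInter fun _ => measurable_hgt δ n MeasurableSet.of_discrete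

variable [NeZero d] {μ : Measure (Step d → ℝ)}

lemma noBack_esc_pos (hμ : Elliptic μ) (hα : 0 < α) (h : 0 < nu μ (Esc δ α)) :
    0 < nu μ (Esc δ α ∩ NoBack δ) := by
  rw [pos_iff_ne_zero] at h ⊢
  intro h0
  refine h (measure_mono_null (t := ⋃ t, ⋃ σ : Fin t → Step d,
    cyl t (ext' σ) ∩ shift t ⁻¹' (Esc δ α ∩ NoBack δ)) (fun η hη => ?_) ?_)
  · obtain ⟨t, ht'⟩ := esc_min hα hη
    exact Set.mem_iUnion.mpr ⟨t, Set.mem_iUnion.mpr ⟨fun s => η s,
      fun s hs => by rw [ext'_lt _ hs], esc_shift hα hη t, ht'⟩⟩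
  · exact measure_iUnion_null fun t => measure_iUnion_null fun σ => nonpos_iff_eq_zero.mp
      (le_of_le_of_eq (prefix_le hμ t _ (measurableSet_esc.inter (measurableSet_noBack δ))) h0)

lemma reg_zero_esc_pos (hμ : Elliptic μ) (hα : 0 < α) (h : 0 < nu μ (Esc δ α)) :
    0 < nu μ (Reg δ 0 ∩ Esc δ α) := by
  have hsub : Pre δ 0 0 ∩ shift (0 + patLen d) ⁻¹' (Esc δ α ∩ NoBack δ) ⊆ Reg δ 0 ∩ Esc δ α :=
    fun η ⟨h1, h2, h3⟩ => ⟨⟨0, h1, h3⟩, esc_of_shift hα h2⟩
  refine lt_of_lt_of_le ?_ (measure_mono hsub)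
  rw [split_pre hμ (detBy_pre 0 0) subset_rfl measurableSet_esc, measure_pre hμ]
  have huniv : Hit δ ((0 : ℕ) : ℤ) 0 = Set.univ :=
    Set.eq_univ_of_forall fun η => ⟨by simp, fun t ht' => absurd ht' (Nat.not_lt_zero t)⟩
  have := isProbabilityMeasure_nu hμ
  rw [huniv, measure_univ, one_mul]
  exact ENNReal.mul_pos (w_ne_zero hμ _ _) (noBack_esc_pos hμ hα h).ne'

lemma reg_zero_subset : Reg δ 0 ⊆ NoBack δ := by
  rintro η ⟨p, hp, hnb⟩
  have hp0 : p = 0 := by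
    by_contra hne
    have := hp.1.2 0 (Nat.pos_of_ne_zero hne)
    simp at this
  subst hp0
  refine mem_noBack.mpr fun t => ?_
  rcases le_or_gt t (patLen d) with ht' | ht'
  · have := pre_hgt hp ht'
    rw [zero_add] at this
    omega
  · obtain ⟨v, rfl⟩ := Nat.exists_eq_add_of_le ht'.le
    have h1 := hgt_add δ η (0 + patLen d) v
    rw [pre_hgt_end hp] at h1
    rw [zero_add] at h1 hnb
    have := mem_noBack.mp hnb v
    omega

/-- Almost surely on a regeneration at level zero, regenerations accumulate nearly linearly. -/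
lemma many_reg (hμ : Elliptic μ) (hU : 0 < nu μ (Unbdd δ)) (hD : 0 < nu μ (NoBack δ)) {θ : ℝ}
    (hθ0 : 0 < θ) (hθ1 : θ < 1) :
    ∀ᵐ η ∂nu μ, η ∈ Reg δ 0 → ∀ᶠ M : ℕ in atTop, ((M : ℝ) / 2) ^ θ ≤ regNum δ M η := by
  obtain ⟨K, hK, hle⟩ := few_reg hμ hU hD
  set b : ℝ := (2 : ℝ) ^ θ with hb
  have hb2 : b < 2 := by
    calc b < (2 : ℝ) ^ (1 : ℝ) := Real.rpow_lt_rpow_of_exponent_lt one_lt_two hθ1
      _ = 2 := Real.rpow_one 2
  have hb0 : 0 < b := by positivity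
  have hsum : ∑' i : ℕ, nu μ (Reg δ 0 ∩ {η | regNum δ (2 ^ i) η ≤ ⌊b ^ i⌋₊}) ≠ ∞ := by
    refine ne_top_of_le_ne_top (b := ∑' i : ℕ, K * ENNReal.ofReal (b / 2) ^ i) ?_
      (ENNReal.tsum_le_tsum fun i => ?_)
    · rw [ENNReal.tsum_mul_left]
      refine ENNReal.mul_ne_top hK ?_
      rw [ENNReal.tsum_geometric]
      exact ENNReal.inv_ne_top.mpr
        (tsub_pos_of_lt (ENNReal.ofReal_lt_one.mpr (by linarith))).ne'
    · have h1 := hle (2 ^ i) ⌊b ^ i⌋₊
      have h2 : ((⌊b ^ i⌋₊ : ℕ) : ℝ≥0∞) ≤ ENNReal.ofReal (b / 2) ^ i * ((2 ^ i : ℕ) : ℝ≥0∞) := by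
        rw [← ENNReal.ofReal_natCast, ← ENNReal.ofReal_natCast (2 ^ i),
          ← ENNReal.ofReal_pow (by positivity), ← ENNReal.ofReal_mul (by positivity)]
        refine ENNReal.ofReal_le_ofReal (le_of_le_of_eq (Nat.floor_le (by positivity)) ?_)
        rw [div_pow]
        push_cast
        field_simp
      rw [← ENNReal.mul_le_mul_iff_right (a := ((2 ^ i : ℕ) : ℝ≥0∞)) (by simp)
        (ENNReal.natCast_ne_top _)]
      calc ((2 ^ i : ℕ) : ℝ≥0∞) * _ ≤ K * (⌊b ^ i⌋₊ : ℝ≥0∞) := h1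
        _ ≤ K * (ENNReal.ofReal (b / 2) ^ i * ((2 ^ i : ℕ) : ℝ≥0∞)) := mul_le_mul' le_rfl h2
        _ = _ := by ring
  filter_upwards [ae_eventually_notMem hsum] with η hη hreg
  obtain ⟨i₀, hi₀⟩ := eventually_atTop.mp hη
  refine eventually_atTop.mpr ⟨2 ^ i₀, fun M hM => ?_⟩
  have hM0 : M ≠ 0 := by
    have : 0 < 2 ^ i₀ := Nat.two_pow_pos i₀
    omega
  set i := Nat.log 2 M with hi
  have hlo : 2 ^ i ≤ M := Nat.pow_log_le_self 2 hM0
  have hhi : M < 2 ^ (i + 1) := Nat.lt_pow_succ_log_self one_lt_two M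
  have hii : i₀ ≤ i := Nat.le_log_of_pow_le one_lt_two hM
  have h1 : ⌊b ^ i⌋₊ < regNum δ (2 ^ i) η := not_le.mp fun hc => hi₀ i hii ⟨hreg, hc⟩
  have h2 : regNum δ (2 ^ i) η ≤ regNum δ M η := by
    refine Finset.card_le_card fun u hu => ?_
    simp only [Finset.mem_filter, Finset.mem_range] at hu ⊢
    exact ⟨by omega, hu.2⟩
  have h3 : b ^ i < (regNum δ M η : ℝ) :=
    lt_of_lt_of_le (Nat.lt_floor_add_one _) (by exact_mod_cast (show ⌊b ^ i⌋₊ + 1 ≤ regNum δ M η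
      by omega))
  refine le_trans ?_ h3.le
  have h4 : (M : ℝ) / 2 ≤ (2 : ℝ) ^ i := by
    rw [div_le_iff₀ two_pos, ← pow_succ]
    exact_mod_cast hhi.le
  refine le_of_le_of_eq (Real.rpow_le_rpow (by positivity) h4 hθ0.le) ?_
  rw [hb, ← Real.rpow_natCast, ← Real.rpow_mul zero_le_two, mul_comm, Real.rpow_mul zero_le_two,
    Real.rpow_natCast]

lemma regNum_le_cuts {η : ℕ → Step d} {M m t : ℕ} (htm : t + patLen d ≤ m)
    (hM : (M : ℤ) ≤ hgt δ η t) {j : Fin d} (hj : j ≠ δ.1) :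
    regNum δ M η ≤ (cuts δ m j η).card := by
  classical
  obtain ⟨i₀, hi₀, rfl⟩ := lat_surj δ hj
  have hlev : ∀ i < M, η ∈ Reg δ i → ∃ q, q ∈ cuts δ m (δ.1 + Fin.ofNat d (i₀ + 1)) η ∧
      hgt δ η q = (i : ℤ) + (i₀ + 1 : ℕ) := by
    rintro i hi ⟨p, hp, hnb⟩
    have hpt : p ≤ t := by
      obtain ⟨q, hq, hhit⟩ := exists_hit δ (j := i) (n := t) (η := η) (by omega)
      rw [hit_unique hp.1 hhit]; exact hq
    have hu : 2 * i₀ + 1 < patLen d := by unfold patLen; omega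
    have hval : hgt δ η (p + (2 * i₀ + 1)) = (i : ℤ) + (i₀ + 1 : ℕ) := by
      rw [pre_hgt hp hu.le]; omega
    have hstep : (η (p + (2 * i₀ + 1))).1 = δ.1 + Fin.ofNat d (i₀ + 1) := by
      have h2 := hp.2 (2 * i₀ + 1) hu
      rw [shift] at h2
      rw [h2, pat, if_neg (by omega), show (2 * i₀ + 1) / 2 = i₀ by omega]
    refine ⟨p + (2 * i₀ + 1), mem_cuts.mpr ⟨⟨by omega, hstep ▸ hj, fun s hs => ?_,
      fun u hu1 hu2 => ?_⟩, hstep⟩, hval⟩
    · rw [hval]
      rcases lt_or_ge s p with hsp | hsp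
      · have := hp.1.2 s hsp
        omega
      · obtain ⟨v, rfl⟩ := Nat.exists_eq_add_of_le hsp
        rw [pre_hgt hp (u := v) (by omega)]
        omega
    · rw [hval]
      rcases le_or_gt u (p + patLen d) with hup | hup
      · obtain ⟨v, rfl⟩ := Nat.exists_eq_add_of_le (show p ≤ u by omega)
        rw [pre_hgt hp (u := v) (by omega)]
        omega
      · obtain ⟨v, rfl⟩ := Nat.exists_eq_add_of_le hup.le
        rw [hgt_add, pre_hgt_end hp]
        have := mem_noBack.mp hnb v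
        omega
  choose! q hq hh using hlev
  refine Finset.card_le_card_of_injOn q (fun i hi => ?_) fun a ha b hb he => ?_
  · simp only [Finset.coe_filter, Finset.mem_range, Set.mem_ofPred_eq] at hi
    exact hq i hi.1 hi.2
  · simp only [Finset.coe_filter, Finset.mem_range, Set.mem_ofPred_eq] at ha hb
    have h1 := hh a ha.1 ha.2
    rw [he, hh b hb.1 hb.2] at h1
    omega

lemma measurable_psi (C : ℝ) (δ : Step d) (m : ℕ) : Measurable (psi C δ m) :=
  measurable_of_det (H := m) fun _ _ h => (like_of_agree h).psi_eq C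

lemma psi_ne_top (C : ℝ) (δ : Step d) (m : ℕ) (η : ℕ → Step d) : psi C δ m η ≠ ∞ :=
  ENNReal.prod_ne_top fun _ _ => ENNReal.ofReal_ne_top

/-- Never going back with summable concentration factors has positive probability. -/
theorem summable_psi (hμ : Elliptic μ) (hα : 2 < α * ((d : ℝ) - 1)) (h : 0 < nu μ (Esc δ α))
    {C : ℝ} (hC : 0 < C) : 0 < nu μ {η | η ∈ NoBack δ ∧ ∑' m, psi C δ m η ≠ ∞} := by
  have hd1 : (1 : ℝ) ≤ d := by exact_mod_cast NeZero.pos d
  have hα0 : 0 < α := by nlinarith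
  have hU : 0 < nu μ (Unbdd δ) := lt_of_lt_of_le h (measure_mono (esc_subset_unbdd hα0))
  have hD : 0 < nu μ (NoBack δ) :=
    lt_of_lt_of_le (noBack_esc_pos hμ hα0 h) (measure_mono Set.inter_subset_right)
  set θ : ℝ := (2 / (α * ((d : ℝ) - 1)) + 1) / 2 with hθ
  have h21 : 2 / (α * ((d : ℝ) - 1)) < 1 := (div_lt_one (by linarith)).mpr hα
  have hθ0 : 0 < θ := by positivity
  have hθ1 : θ < 1 := by rw [hθ]; linarith
  have hθs : 2 < θ * (α * ((d : ℝ) - 1)) := by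
    have : 2 / (α * ((d : ℝ) - 1)) < θ := by rw [hθ]; linarith
    exact (div_lt_iff₀ (by linarith)).mp this
  refine lt_of_lt_of_le (reg_zero_esc_pos hμ hα0 h) (measure_mono_ae ?_)
  filter_upwards [many_reg hμ hU hD hθ0 hθ1] with η hη ⟨hreg, c, hc, hev⟩
  obtain ⟨M₀, hM₀⟩ := eventually_atTop.mp (hη hreg)
  set s : ℝ := θ * α * (((d - 1 : ℕ) : ℝ) / 2) with hs
  have hs1 : 1 < s := by
    rw [hs, Nat.cast_sub (NeZero.pos d), Nat.cast_one]
    linarith
  set K₀ : ℝ := (c / 2 ^ α / 4) ^ θ with hK₀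
  have hK₀0 : 0 < K₀ := by positivity
  set C' : ℝ := (C / √K₀) ^ (d - 1) with hC'
  have hbound : ∀ᶠ m : ℕ in atTop, psi C δ m η ≤ ENNReal.ofReal (C' * (m : ℝ) ^ (-s)) := by
    filter_upwards [(tendsto_sub_atTop_nat (patLen d)).eventually hev,
      (tendsto_sub_atTop_nat (patLen d)).eventually
        ((tendsto_mul_rpow hc hα0).eventually_ge_atTop ((M₀ : ℝ) + 1)),
      eventually_ge_atTop (2 * patLen d)] with m hm1 hm2 hm3
    set t := m - patLen d with ht'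
    set M := (hgt δ η t).toNat with hM
    have hpos : (1 : ℝ) ≤ hgt δ η t := by
      have : (0 : ℝ) ≤ M₀ := Nat.cast_nonneg _
      linarith
    have hz : (1 : ℤ) ≤ hgt δ η t := by exact_mod_cast hpos
    have hMz : (M : ℤ) = hgt δ η t := Int.toNat_of_nonneg (by omega)
    have hMr : (M : ℝ) = hgt δ η t := by exact_mod_cast hMz
    have hM0 : M₀ ≤ M := by
      have : (M₀ : ℝ) ≤ M := by rw [hMr]; linarith
      exact_mod_cast this
    have hm0 : (0 : ℝ) < m := by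
      have : 0 < m := by unfold patLen at hm3; omega
      exact_mod_cast this
    have hlow : c / 2 ^ α / 4 * (m : ℝ) ^ α ≤ (M : ℝ) / 2 := by
      have h1 : ((m : ℝ) / 2) ^ α ≤ (t : ℝ) ^ α := by
        refine Real.rpow_le_rpow (by positivity) ?_ hα0.le
        rw [div_le_iff₀ two_pos]
        exact_mod_cast (show m ≤ t * 2 by omega)
      rw [Real.div_rpow (by positivity) zero_le_two] at h1
      have h2 := mul_le_mul_of_nonneg_left h1 hc.le
      have h3 : c * ((m : ℝ) ^ α / 2 ^ α) = 4 * (c / 2 ^ α / 4 * (m : ℝ) ^ α) := by ring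
      have h4 : 0 ≤ c / 2 ^ α / 4 * (m : ℝ) ^ α := by positivity
      linarith
    have hnum : K₀ * (m : ℝ) ^ (θ * α) ≤ regNum δ M η := by
      refine le_trans (le_of_eq_of_le ?_ (Real.rpow_le_rpow (by positivity) hlow hθ0.le)) (hM₀ M hM0)
      rw [Real.mul_rpow (by positivity) (by positivity), hK₀, ← Real.rpow_mul hm0.le, mul_comm θ α]
    calc psi C δ m η
        ≤ ∏ _j ∈ Finset.univ.erase δ.1, ENNReal.ofReal (C / √(K₀ * (m : ℝ) ^ (θ * α))) := by
          refine Finset.prod_le_prod' fun j hj => ENNReal.ofReal_le_ofReal ?_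
          refine div_le_div_of_nonneg_left hC.le (by positivity) (Real.sqrt_le_sqrt ?_)
          have h1 : (regNum δ M η : ℝ) ≤ ((cuts δ m j η).card : ℝ) := by
            exact_mod_cast regNum_le_cuts (t := t) (by omega) hMz.le (Finset.mem_erase.mp hj).1
          linarith
      _ = ENNReal.ofReal ((C / √(K₀ * (m : ℝ) ^ (θ * α))) ^ (d - 1)) := by
          rw [Finset.prod_const, Finset.card_erase_of_mem (Finset.mem_univ _), Finset.card_univ,
            Fintype.card_fin, ENNReal.ofReal_pow (by positivity)]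
      _ = _ := by
          congr 1
          rw [hC', Real.sqrt_mul hK₀0.le, Real.sqrt_eq_rpow ((m : ℝ) ^ (θ * α)),
            ← Real.rpow_mul hm0.le, div_mul_eq_div_mul_one_div, mul_pow, one_div, inv_pow,
            ← Real.rpow_natCast ((m : ℝ) ^ (θ * α * (1 / 2))), ← Real.rpow_mul hm0.le,
            ← Real.rpow_neg hm0.le, hs]
          congr 2
          ring
  have hsum : Summable (fun m : ℕ => C' * (m : ℝ) ^ (-s)) :=
    (Real.summable_nat_rpow.mpr (by linarith)).mul_left C'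
  obtain ⟨N₀, hN₀⟩ := eventually_atTop.mp hbound
  refine ⟨reg_zero_subset hreg, ?_⟩
  rw [← ENNReal.summable.sum_add_tsum_nat_add' (k := N₀)]
  refine ENNReal.add_ne_top.mpr
    ⟨ENNReal.sum_ne_top.mpr fun m _ => psi_ne_top C δ m η, ?_⟩
  refine ne_top_of_le_ne_top ?_ (ENNReal.tsum_le_tsum fun m => hN₀ (m + N₀) (Nat.le_add_left _ _))
  exact ((summable_nat_add_iff N₀).mpr hsum).tsum_ofReal_lt_top.ne

end Vale.Agent.P147
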