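import Vale.Agent.P147.Moments

/-!
P147: a future confined to unvisited sites is independent of the past.
-/

open MeasureTheory
open scoped ENNReal

noncomputable section

namespace Vale.Agent.P147

variable {d : ℕ}

/-- The event that the walk stays in `A` up to time `H`. -/
def StayH (A : Set (Pos d)) (H : ℕ) : Set (ℕ → Step d) := {η | ∀ t ≤ H, pos η t ∈ A}

/-- The event that the walk stays in `A` for ever. -/
def Stay (A : Set (Pos d)) : Set (ℕ → Step d) := {η | ∀ t, pos η t ∈ A}

/-- The set `S` only depends on the first `H` steps. -/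
def DetBy (H : ℕ) (S : Set (ℕ → Step d)) : Prop :=
  ∀ η η', (∀ t < H, η t = η' t) → η ∈ S → η' ∈ S

lemma measurable_pos (n : ℕ) : Measurable (fun η : ℕ → Step d => pos η n) := by
  induction n with
  | zero => exact measurable_const
  | succ n ih =>
    exact (measurable_of_countable fun r : Pos d × Step d => r.1 + vec r.2).comp
      (ih.prodMk (measurable_pi_apply n))

lemma measurableSet_stayH (A : Set (Pos d)) (H : ℕ) : MeasurableSet (StayH A H) := by
  have : StayH A H = ⋂ t, ⋂ (_ : t ≤ H), (fun η : ℕ → Step d => pos η t) ⁻¹' A := by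
    ext η; simp [StayH]
  rw [this]
  exact MeasurableSet.iInter fun t => MeasurableSet.iInter fun _ =>
    measurable_pos t (MeasurableSet.of_discrete)

lemma stay_eq_iInter (A : Set (Pos d)) (m : ℕ) : Stay A = ⋂ H, StayH A (m + H) := by
  ext η
  simp only [Stay, StayH, Set.mem_setOf_eq, Set.mem_iInter]
  exact ⟨fun h H t _ => h t, fun h t => h t t (by omega)⟩

lemma measurableSet_stay (A : Set (Pos d)) : MeasurableSet (Stay A) := by
  rw [stay_eq_iInter A 0]
  exact MeasurableSet.iInter fun H => measurableSet_stayH A _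

lemma detBy_stayH (A : Set (Pos d)) (H : ℕ) : DetBy H (StayH A H) := fun η η' h hη t ht => by
  rw [← pos_congr fun s hs => h s (by omega)]
  exact hη t ht

lemma detBy_cyl {m H : ℕ} (h : m ≤ H) (ζ : ℕ → Step d) : DetBy H (cyl m ζ) :=
  fun η η' he hη t ht => by rw [← he t (by omega)]; exact hη t ht

lemma DetBy.inter {H : ℕ} {S T : Set (ℕ → Step d)} (hS : DetBy H S) (hT : DetBy H T) :
    DetBy H (S ∩ T) := fun η η' h hη => ⟨hS η η' h hη.1, hT η η' h hη.2⟩

variable [NeZero d]

/-- Extend a finite prefix by a default step. -/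
def ext' {H : ℕ} (σ : Fin H → Step d) (t : ℕ) : Step d :=
  if h : t < H then σ ⟨t, h⟩ else (0, true)

lemma ext'_lt {H : ℕ} (σ : Fin H → Step d) {t : ℕ} (h : t < H) : ext' σ t = σ ⟨t, h⟩ := dif_pos h

/-- Measures agreeing on the cylinders inside a set given by finitely many steps agree on it. -/
lemma measure_eq_of_detBy {m₁ m₂ : Measure (ℕ → Step d)} {H : ℕ} {S : Set (ℕ → Step d)}
    (hS : DetBy H S) (h : ∀ ζ ∈ S, m₁ (cyl H ζ) = m₂ (cyl H ζ)) : m₁ S = m₂ S := by
  classical
  have hdec : S = ⋃ σ ∈ Finset.univ.filter (fun σ : Fin H → Step d => ext' σ ∈ S),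
      cyl H (ext' σ) := by
    ext η
    simp only [Set.mem_iUnion, Finset.mem_filter, Finset.mem_univ, true_and, exists_prop]
    constructor
    · intro hη
      exact ⟨fun t => η t, hS η _ (fun t ht => by rw [ext'_lt _ ht]) hη,
        fun t ht => by rw [ext'_lt _ ht]⟩
    · rintro ⟨σ, hσ, hη⟩
      exact hS _ η (fun t ht => (hη t ht).symm) hσ
  have hdisj : Set.PairwiseDisjoint
      ((Finset.univ.filter (fun σ : Fin H → Step d => ext' σ ∈ S) : Finset (Fin H → Step d)) :
        Set (Fin H → Step d))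
      (fun σ => cyl H (ext' σ)) := by
    intro σ _ τ _ hne
    refine Set.disjoint_left.mpr fun η h1 h2 => hne ?_
    funext t
    have e1 := h1 t t.isLt
    have e2 := h2 t t.isLt
    rw [ext'_lt _ t.isLt] at e1 e2
    exact e1.symm.trans e2
  rw [hdec, measure_biUnion_finset hdisj fun σ _ => measurableSet_cyl _ _,
    measure_biUnion_finset hdisj fun σ _ => measurableSet_cyl _ _]
  exact Finset.sum_congr rfl fun σ hσ => h _ (Finset.mem_filter.mp hσ).2

variable {μ : Measure (Step d → ℝ)}

lemma w_congr {n : ℕ} {ξ ξ' : ℕ → Step d} (h : ∀ t < n, ξ t = ξ' t) : w μ n ξ = w μ n ξ' := by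
  unfold w
  congr 1
  ext η
  exact ⟨fun hη t ht => by rw [hη t ht, h t ht], fun hη t ht => by rw [hη t ht, h t ht]⟩

lemma Mo_congr {T : Finset ℕ} {ξ ξ' : ℕ → Step d} (h : ∀ t ∈ T, ξ t = ξ' t) :
    Mo μ T ξ = Mo μ T ξ' :=
  lintegral_congr fun p => Finset.prod_congr rfl fun t ht => by rw [h t ht]

lemma w_glue (hμ : Elliptic μ) {n m : ℕ} {ξ ζ : ℕ → Step d}
    (h : ∀ s < n, ∀ t < m, pos ξ s ≠ pos ξ n + pos ζ t) :
    w μ (n + m) (glue n ξ ζ) = w μ n ξ * w μ m ζ := by
  rw [w_eq_prod hμ, Finset.prod_range_add]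
  congr 1
  · rw [← w_eq_prod hμ]
    exact w_congr fun t ht => glue_lt ht
  · rw [w_eq_prod hμ]
    refine Finset.prod_congr rfl fun t ht => ?_
    rw [Finset.mem_range] at ht
    have hT : times (n + t) (glue n ξ ζ) (pos (glue n ξ ζ) (n + t))
        = (times t ζ (pos ζ t)).map (addLeftEmbedding n) := by
      ext s
      simp only [times, Finset.mem_filter, Finset.mem_range, Finset.mem_map, addLeftEmbedding_apply,
        pos_glue_add]
      constructor
      · rintro ⟨h1, h2⟩
        rcases lt_or_ge s n with hs | hs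
        · rw [pos_glue_le hs.le] at h2
          exact absurd h2 (h s hs t ht)
        · obtain ⟨r, rfl⟩ := Nat.exists_eq_add_of_le hs
          rw [pos_glue_add, add_right_inj] at h2
          exact ⟨r, ⟨by omega, h2⟩, rfl⟩
      · rintro ⟨r, ⟨h1, h2⟩, rfl⟩
        exact ⟨by omega, by rw [pos_glue_add, h2]⟩
    have hmap : ∀ T : Finset ℕ,
        Mo μ (T.map (addLeftEmbedding n)) (glue n ξ ζ) = Mo μ T ζ := fun T => by
      simp only [Mo, Finset.prod_map, addLeftEmbedding_apply, glue_add]
    have hins : insert (n + t) ((times t ζ (pos ζ t)).map (addLeftEmbedding n))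
        = (insert t (times t ζ (pos ζ t))).map (addLeftEmbedding n) := by
      simp [Finset.map_insert]
    rw [Rr, Rr, hT, hins, hmap, hmap]

/-- On the event that the future stays among sites not left before time `n`, the future is an
independent fresh walk. -/
theorem factor (hμ : Elliptic μ) {n : ℕ} {ξ : ℕ → Step d} {A : Set (Pos d)}
    (hA : ∀ t < n, pos ξ t - pos ξ n ∉ A) {F : Set (ℕ → Step d)} (hF : MeasurableSet F) :
    nu μ (cyl n ξ ∩ shift n ⁻¹' (F ∩ Stay A)) = w μ n ξ * nu μ (F ∩ Stay A) := by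
  have := isProbabilityMeasure_nu hμ
  set ρ₁ := ((nu μ).restrict (cyl n ξ)).map (shift n) with hρ₁
  set ρ₂ := w μ n ξ • nu μ with hρ₂
  have : IsFiniteMeasure ρ₂ :=
    Measure.smul_finite _ (measure_ne_top (nu μ) (cyl n ξ))
  suffices key : ρ₁.restrict (Stay A) = ρ₂.restrict (Stay A) by
    have h2 := congrArg (fun m : Measure (ℕ → Step d) => m F) key
    simp only [Measure.restrict_apply hF, hρ₁, hρ₂, Measure.smul_apply, smul_eq_mul] at h2
    rwa [Measure.map_apply (measurable_shift n) (hF.inter (measurableSet_stay A)),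
      Measure.restrict_apply (measurable_shift n (hF.inter (measurableSet_stay A))),
      Set.inter_comm] at h2
  refine ext_cyl fun m ζ => ?_
  rw [Measure.restrict_apply (measurableSet_cyl m ζ), Measure.restrict_apply (measurableSet_cyl m ζ),
    stay_eq_iInter A m, Set.inter_iInter]
  have hanti : Antitone fun H => cyl m ζ ∩ StayH A (m + H) := fun H H' hH η hη =>
    ⟨hη.1, fun t ht => hη.2 t (by omega)⟩
  have hmeas : ∀ H, NullMeasurableSet (cyl m ζ ∩ StayH A (m + H)) ρ₁ ∧
      NullMeasurableSet (cyl m ζ ∩ StayH A (m + H)) ρ₂ := fun H =>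
    ⟨((measurableSet_cyl m ζ).inter (measurableSet_stayH A _)).nullMeasurableSet,
      ((measurableSet_cyl m ζ).inter (measurableSet_stayH A _)).nullMeasurableSet⟩
  rw [hanti.measure_iInter (fun H => (hmeas H).1) ⟨0, measure_ne_top _ _⟩,
    hanti.measure_iInter (fun H => (hmeas H).2) ⟨0, measure_ne_top _ _⟩]
  refine iInf_congr fun H => ?_
  refine measure_eq_of_detBy ((detBy_cyl (Nat.le_add_right m H) ζ).inter (detBy_stayH A _)) ?_
  rintro θ ⟨-, hθ⟩
  rw [hρ₁, hρ₂, Measure.map_apply (measurable_shift n) (measurableSet_cyl _ _),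
    Measure.restrict_apply (measurable_shift n (measurableSet_cyl _ _)), Set.inter_comm,
    cyl_inter_shift, Measure.smul_apply, smul_eq_mul]
  refine w_glue hμ fun s hs t ht heq => hA s hs ?_
  rw [heq, add_sub_cancel_left]
  exact hθ t ht.le

end Vale.Agent.P147
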