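import Vale.Agent.P147.Height
import Vale.Agent.P147.Binom

/-!
P147: resampling the sign of lateral steps made at cut times spreads the walk inside its level.
-/

open MeasureTheory
open scoped ENNReal

noncomputable section

namespace Vale.Agent.P147

variable {d : ℕ}

/-- A cut time before `m`: a lateral step from a strict record height never seen again up to `m`. -/
def IsCut (δ : Step d) (m : ℕ) (η : ℕ → Step d) (p : ℕ) : Prop :=
  p < m ∧ (η p).1 ≠ δ.1 ∧ (∀ s < p, hgt δ η s < hgt δ η p) ∧
    ∀ t ≤ m, p + 1 < t → hgt δ η p < hgt δ η t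

open Classical in
/-- The cut times before `m` with a step along the coordinate `j`. -/
def cuts (δ : Step d) (m : ℕ) (j : Fin d) (η : ℕ → Step d) : Finset ℕ :=
  (Finset.range m).filter (fun p => IsCut δ m η p ∧ (η p).1 = j)

/-- Paths that differ before `m` at most in the signs of cut steps. -/
def Like (δ : Step d) (m : ℕ) (η η' : ℕ → Step d) : Prop :=
  ∀ t < m, (η t).1 = (η' t).1 ∧ (¬ IsCut δ m η t → η t = η' t)

/-- The concentration factor at time `m`. -/
def psi (C : ℝ) (δ : Step d) (m : ℕ) (η : ℕ → Step d) : ℝ≥0∞ :=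
  ∏ j ∈ Finset.univ.erase δ.1, ENNReal.ofReal (C / √(((cuts δ m j η).card : ℝ) + 1))

lemma mem_cuts {δ : Step d} {m : ℕ} {j : Fin d} {η : ℕ → Step d} {p : ℕ} :
    p ∈ cuts δ m j η ↔ IsCut δ m η p ∧ (η p).1 = j := by
  simp only [cuts, Finset.mem_filter, Finset.mem_range]
  exact ⟨fun h => h.2, fun h => ⟨h.1.1, h⟩⟩

lemma like_of_agree {δ : Step d} {m : ℕ} {η η' : ℕ → Step d} (h : ∀ t < m, η t = η' t) :
    Like δ m η η' := fun t ht => ⟨by rw [h t ht], fun _ => h t ht⟩

lemma Like.hgt_eq {δ : Step d} {m : ℕ} {η η' : ℕ → Step d} (h : Like δ m η η') :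
    ∀ t ≤ m, hgt δ η t = hgt δ η' t := by
  intro t
  induction t with
  | zero => simp
  | succ t ih =>
    intro htm
    rw [hgt_succ, hgt_succ, ih (by omega)]
    congr 1
    obtain ⟨h1, h2⟩ := h t (by omega)
    by_cases hc : IsCut δ m η t
    · rw [ht_vec_lat hc.2.1, ht_vec_lat (h1 ▸ hc.2.1)]
    · rw [h2 hc]

lemma Like.isCut_iff {δ : Step d} {m : ℕ} {η η' : ℕ → Step d} (h : Like δ m η η') (p : ℕ) :
    IsCut δ m η p ↔ IsCut δ m η' p := by
  refine and_congr_right fun hp => ?_
  refine and_congr (by rw [(h p hp).1]) (and_congr (forall₂_congr fun s hs => ?_) ?_)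
  · rw [h.hgt_eq s (by omega), h.hgt_eq p (by omega)]
  · exact forall₃_congr fun t ht _ => by rw [h.hgt_eq t ht, h.hgt_eq p (by omega)]

lemma Like.symm {δ : Step d} {m : ℕ} {η η' : ℕ → Step d} (h : Like δ m η η') : Like δ m η' η :=
  fun t ht => ⟨(h t ht).1.symm, fun hc => ((h t ht).2 fun h' => hc ((h.isCut_iff t).mp h')).symm⟩

lemma Like.cuts_eq {δ : Step d} {m : ℕ} {η η' : ℕ → Step d} (h : Like δ m η η') (j : Fin d) :
    cuts δ m j η = cuts δ m j η' := by
  ext p
  rw [mem_cuts, mem_cuts, h.isCut_iff]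
  exact and_congr_right fun hp => by rw [(h p hp.1).1]

lemma Like.psi_eq {δ : Step d} {m : ℕ} {η η' : ℕ → Step d} (h : Like δ m η η') (C : ℝ) :
    psi C δ m η = psi C δ m η' :=
  Finset.prod_congr rfl fun j _ => by rw [h.cuts_eq j]

lemma Like.mono {δ : Step d} {s m : ℕ} {η η' : ℕ → Step d} (h : Like δ m η η') (hsm : s ≤ m) :
    Like δ s η η' := by
  refine fun t ht => ⟨(h t (by omega)).1, fun hc => ?_⟩
  by_cases hcm : IsCut δ m η t
  · exact absurd ⟨ht, hcm.2.1, hcm.2.2.1, fun u hu hu' => hcm.2.2.2 u (by omega) hu'⟩ hc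
  · exact (h t (by omega)).2 hcm

/-- Between two visits of a site there is no cut time. -/
lemma no_cut_between {δ : Step d} {m : ℕ} {η : ℕ → Step d} {s t p : ℕ} (htm : t ≤ m)
    (heq : pos η s = pos η t) (hsp : s ≤ p) (hpt : p < t) : ¬ IsCut δ m η p := by
  rintro ⟨-, hlat, hpast, hfut⟩
  have hh : hgt δ η s = hgt δ η t := by rw [hgt, hgt, heq]
  have hp1 : hgt δ η (p + 1) = hgt δ η p := by rw [hgt_succ, ht_vec_lat hlat, add_zero]
  rcases eq_or_lt_of_le (Nat.succ_le_of_lt hpt) with rfl | hlt
  · rcases eq_or_lt_of_le hsp with rfl | hlt'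
    · rw [Nat.succ_eq_add_one, pos] at heq
      exact vec_ne_zero (η s) (by simpa using heq.symm)
    · have := hpast s hlt'
      rw [Nat.succ_eq_add_one] at hh
      omega
  · have h1 := hfut t htm hlt
    rcases eq_or_lt_of_le hsp with rfl | hlt'
    · omega
    · have := hpast s hlt'
      omega

lemma Like.pos_eq {δ : Step d} {m : ℕ} {η η' : ℕ → Step d} (h : Like δ m η η') {s t : ℕ}
    (hst : s ≤ t) (htm : t ≤ m) (heq : pos η s = pos η t) : pos η' s = pos η' t := by
  obtain ⟨r, rfl⟩ := Nat.exists_eq_add_of_le hst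
  rw [pos_add] at heq ⊢
  have : pos (shift s η) r = pos (shift s η') r := pos_congr fun u hu =>
    (h (s + u) (by omega)).2 (no_cut_between htm (by rw [← pos_add] at heq; exact heq)
      (Nat.le_add_right s u) (by omega))
  rw [← this, left_eq_add.mp heq, add_zero]

lemma Like.times_eq {δ : Step d} {m : ℕ} {η η' : ℕ → Step d} (h : Like δ m η η') {t : ℕ}
    (ht : t ≤ m) : times t η (pos η t) = times t η' (pos η' t) := by
  ext s
  simp only [times, Finset.mem_filter, Finset.mem_range]
  exact and_congr_right fun hs => ⟨h.pos_eq hs.le ht, h.symm.pos_eq hs.le ht⟩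

variable [NeZero d] {μ : Measure (Step d → ℝ)}

/-- The mean probability of a step. -/
def amean (μ : Measure (Step d → ℝ)) (e : Step d) : ℝ≥0∞ := ∫⁻ p, ENNReal.ofReal (p e) ∂μ

lemma amean_ne_zero (hμ : Elliptic μ) (e : Step d) : amean μ e ≠ 0 := by
  simpa [Mo, amean] using Mo_ne_zero hμ {0} (fun _ => e)

lemma amean_ne_top (hμ : Elliptic μ) (e : Step d) : amean μ e ≠ ∞ := by
  simpa [Mo, amean] using Mo_ne_top hμ {0} (fun _ => e)

lemma Rr_cut (hμ : Elliptic μ) {δ : Step d} {m : ℕ} {η : ℕ → Step d} {t : ℕ}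
    (h : IsCut δ m η t) : Rr μ η t = amean μ (η t) := by
  refine Rr_eq (Finset.filter_eq_empty_iff.mpr fun s hs heq => ?_) hμ
  have := h.2.2.1 s (Finset.mem_range.mp hs)
  rw [hgt, hgt, heq] at this
  exact lt_irrefl _ this

lemma Like.Rr_eq {δ : Step d} {m : ℕ} {η η' : ℕ → Step d} (h : Like δ m η η') {t : ℕ}
    (ht : t < m) (hc : ¬ IsCut δ m η t) : Rr μ η' t = Rr μ η t := by
  have hmem : ∀ s ∈ times t η (pos η t), η' s = η s := fun s hs => by
    simp only [times, Finset.mem_filter, Finset.mem_range] at hs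
    exact ((h s (by omega)).2 (no_cut_between ht.le hs.2 le_rfl hs.1)).symm
  have hins : ∀ s ∈ insert t (times t η (pos η t)), η' s = η s := fun s hs => by
    rcases Finset.mem_insert.mp hs with rfl | hs
    · exact ((h s ht).2 hc).symm
    · exact hmem s hs
  rw [Rr, Rr, ← h.times_eq ht.le, Mo_congr hmem, Mo_congr hins]

lemma pos_eq_sum (η : ℕ → Step d) (n : ℕ) : pos η n = ∑ t ∈ Finset.range n, vec (η t) := by
  induction n with
  | zero => simp [pos]
  | succ n ih => rw [Finset.sum_range_succ, ← ih]; rfl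

/-- Resetting the steps at the times in `K` to the coordinate `j`, negative exactly on `S`. -/
def resign {m : ℕ} (j : Fin d) (K S : Finset ℕ) (σ : Fin m → Step d) : Fin m → Step d :=
  fun t => if (t : ℕ) ∈ K then (j, decide ((t : ℕ) ∉ S)) else σ t

/-- One coordinate of the concentration bound. -/
lemma one_coord (hμ : Elliptic μ) (δ : Step d) (j : Fin d) {C : ℝ}
    (hC : ∀ k s : ℕ, (k.choose s : ℝ≥0∞) * (amean μ (j, false) ^ s * amean μ (j, true) ^ (k - s)) ≤
      ENNReal.ofReal (C / √((k : ℝ) + 1)) * (amean μ (j, false) + amean μ (j, true)) ^ k)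
    (m : ℕ) (g : (ℕ → Step d) → ℝ≥0∞)
    (hg : ∀ (σ : Fin m → Step d) (S : Finset ℕ),
      g (ext' (resign j (cuts δ m j (ext' σ)) S σ)) = g (ext' σ))
    (c : ℤ) :
    (∑ σ : Fin m → Step d, if pos (ext' σ) m j = c then g (ext' σ) * w μ m (ext' σ) else 0) ≤
      ∑ σ : Fin m → Step d, ENNReal.ofReal (C / √(((cuts δ m j (ext' σ)).card : ℝ) + 1)) *
        (g (ext' σ) * w μ m (ext' σ)) := by
  classical
  set K : (Fin m → Step d) → Finset ℕ := fun σ => cuts δ m j (ext' σ) with hK
  have hlike : ∀ σ S, Like δ m (ext' σ) (ext' (resign j (K σ) S σ)) := fun σ S t ht => by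
    simp only [ext'_lt _ ht, resign]
    by_cases h : t ∈ K σ
    · rw [if_pos h]
      have h' := mem_cuts.mp h
      rw [ext'_lt _ ht] at h'
      exact ⟨h'.2, fun hc => absurd h'.1 hc⟩
    · rw [if_neg h]
      exact ⟨rfl, fun _ => rfl⟩
  have hKeq : ∀ σ S, K (resign j (K σ) S σ) = K σ := fun σ S => ((hlike σ S).cuts_eq j).symm
  have hKlt : ∀ σ, ∀ t ∈ K σ, t < m := fun σ t h => (mem_cuts.mp h).1.1
  set reps := Finset.univ.filter (fun σ : Fin m → Step d => resign j (K σ) ∅ σ = σ) with hreps
  have hdec : ∀ f : (Fin m → Step d) → ℝ≥0∞, ∑ σ, f σ =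
      ∑ ρ ∈ reps, ∑ S ∈ (K ρ).powerset, f (resign j (K ρ) S ρ) := by
    intro f
    rw [Finset.sum_sigma']
    refine Finset.sum_bij'
      (fun σ _ => ⟨resign j (K σ) ∅ σ, (K σ).filter (fun t => (ext' σ t).2 = false)⟩)
      (fun x _ => resign j (K x.1) x.2 x.1) ?_ (fun x _ => Finset.mem_univ _) ?_ ?_ ?_
    · intro σ _
      simp only [Finset.mem_sigma, hreps, Finset.mem_filter, Finset.mem_univ, true_and, hKeq,
        Finset.mem_powerset]
      refine ⟨?_, Finset.filter_subset _ _⟩
      funext t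
      simp only [resign]
      split <;> rfl
    · intro σ _
      simp only [hKeq]
      funext t
      simp only [resign]
      by_cases h : (t : ℕ) ∈ K σ
      · rw [if_pos h]
        have h' := (mem_cuts.mp h).2
        rw [ext'_lt _ t.isLt] at h'
        have h2 : (σ t).2 = decide ((t : ℕ) ∉ (K σ).filter fun u => (ext' σ u).2 = false) := by
          rcases hb : (σ t).2 with _ | _ <;> simp [h, ext'_lt _ t.isLt, hb]
        rw [← h2, ← h']
      · rw [if_neg h, if_neg h]
    · rintro ⟨ρ, S⟩ hx
      simp only [Finset.mem_sigma, hreps, Finset.mem_filter, Finset.mem_univ, true_and,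
        Finset.mem_powerset] at hx
      simp only [hKeq, Sigma.mk.injEq, heq_eq_eq]
      refine ⟨?_, ?_⟩
      · conv_rhs => rw [← hx.1]
        funext t
        simp only [resign]
        split <;> rfl
      · ext t
        simp only [Finset.mem_filter]
        refine ⟨fun ⟨h1, h2⟩ => ?_, fun h => ⟨hx.2 h, ?_⟩⟩
        · rw [ext'_lt _ (hKlt ρ t h1)] at h2
          simpa [resign, h1] using h2
        · rw [ext'_lt _ (hKlt ρ t (hx.2 h))]
          simp [resign, hx.2 h, h]
    · intro σ _
      congr 1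
      simp only [hKeq]
      funext t
      simp only [resign]
      by_cases h : (t : ℕ) ∈ K σ
      · rw [if_pos h]
        have h' := (mem_cuts.mp h).2
        rw [ext'_lt _ t.isLt] at h'
        rcases hb : σ t with ⟨j', b⟩
        rw [hb] at h'
        cases b <;> simp [h, ext'_lt _ t.isLt, hb, h'.symm]
      · rw [if_neg h, if_neg h]
  rw [hdec, hdec]
  refine Finset.sum_le_sum fun ρ hρ => ?_
  simp only [hreps, Finset.mem_filter, Finset.mem_univ, true_and] at hρ
  set k := (K ρ).card with hk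
  set R : ℝ≥0∞ := g (ext' ρ) * ∏ t ∈ Finset.range m \ K ρ, Rr μ (ext' ρ) t with hR
  have hgw : ∀ S ∈ (K ρ).powerset, g (ext' (resign j (K ρ) S ρ)) *
      w μ m (ext' (resign j (K ρ) S ρ)) =
        R * (amean μ (j, false) ^ S.card * amean μ (j, true) ^ (k - S.card)) := by
    intro S hS
    rw [Finset.mem_powerset] at hS
    have hsub : K ρ ⊆ Finset.range m := fun t h => Finset.mem_range.mpr (hKlt ρ t h)
    rw [hR, hg, w_eq_prod hμ, ← Finset.prod_sdiff hsub, mul_assoc]
    congr 2
    · refine Finset.prod_congr rfl fun t ht => ?_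
      rw [Finset.mem_sdiff, Finset.mem_range] at ht
      by_cases hc : IsCut δ m (ext' ρ) t
      · rw [Rr_cut hμ hc, Rr_cut hμ (((hlike ρ S).isCut_iff t).mp hc)]
        simp [ext'_lt _ ht.1, resign, ht.2]
      · exact (hlike ρ S).Rr_eq ht.1 hc
    · rw [← Finset.prod_sdiff hS, mul_comm, hk, ← Finset.card_sdiff_of_subset hS]
      congr 1
      · refine Finset.prod_eq_pow_card fun t ht => ?_
        rw [Rr_cut hμ (((hlike ρ S).isCut_iff t).mp (mem_cuts.mp (hS ht)).1),
          ext'_lt _ (hKlt ρ t (hS ht))]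
        simp [resign, hS ht, ht]
      · refine Finset.prod_eq_pow_card fun t ht => ?_
        rw [Finset.mem_sdiff] at ht
        rw [Rr_cut hμ (((hlike ρ S).isCut_iff t).mp (mem_cuts.mp ht.1).1),
          ext'_lt _ (hKlt ρ t ht.1)]
        simp [resign, ht.1, ht.2]
  have hposS : ∀ S ∈ (K ρ).powerset,
      pos (ext' (resign j (K ρ) S ρ)) m j = pos (ext' ρ) m j - 2 * S.card := by
    intro S hS
    rw [Finset.mem_powerset] at hS
    have hsub : S ⊆ Finset.range m := fun t h => Finset.mem_range.mpr (hKlt ρ t (hS h))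
    rw [pos_eq_sum, pos_eq_sum, Finset.sum_apply, Finset.sum_apply, ← Finset.sum_sdiff hsub,
      ← Finset.sum_sdiff hsub (f := fun t => vec (ext' ρ t) j)]
    have h1 : ∀ t ∈ Finset.range m \ S,
        vec (ext' (resign j (K ρ) S ρ) t) j = vec (ext' ρ t) j := fun t ht => by
      rw [Finset.mem_sdiff, Finset.mem_range] at ht
      rw [ext'_lt _ ht.1, ext'_lt _ ht.1]
      conv_rhs => rw [← hρ]
      simp [resign, ht.2]
    have h2 : ∀ t ∈ S, vec (ext' (resign j (K ρ) S ρ) t) j = vec (ext' ρ t) j - 2 := fun t ht => by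
      have hlt := hKlt ρ t (hS ht)
      rw [ext'_lt _ hlt, ext'_lt _ hlt]
      conv_rhs => rw [← hρ]
      simp [resign, hS ht, ht, vec]
    rw [Finset.sum_congr rfl h1, Finset.sum_congr rfl h2, Finset.sum_sub_distrib]
    simp only [Finset.sum_const, Int.nsmul_eq_mul]
    ring
  calc _ = ∑ S ∈ (K ρ).powerset, (if pos (ext' ρ) m j - 2 * (S.card : ℤ) = c then
          R * (amean μ (j, false) ^ S.card * amean μ (j, true) ^ (k - S.card)) else 0) :=
        Finset.sum_congr rfl fun S hS => by rw [hposS S hS, hgw S hS]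
    _ ≤ ENNReal.ofReal (C / √((k : ℝ) + 1)) *
          (R * (amean μ (j, false) + amean μ (j, true)) ^ k) := by
        rw [Finset.sum_powerset_apply_card
          (fun u : ℕ => if pos (ext' ρ) m j - 2 * (u : ℤ) = c then
            R * (amean μ (j, false) ^ u * amean μ (j, true) ^ (k - u)) else 0)]
        rcases em (∃ u ∈ Finset.range (k + 1), pos (ext' ρ) m j - 2 * (u : ℤ) = c) with
          ⟨u, hu, huc⟩ | hno
        · rw [Finset.sum_eq_single u]
          · rw [if_pos huc, nsmul_eq_mul, mul_left_comm, mul_left_comm (ENNReal.ofReal _)]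
            exact mul_le_mul' le_rfl (hC k u)
          · intro v _ hv
            rw [if_neg fun h => hv (by omega), smul_zero]
          · exact fun h => absurd hu h
        · push Not at hno
          rw [Finset.sum_eq_zero fun v hv => by rw [if_neg (hno v hv), smul_zero]]
          exact zero_le
    _ = ∑ S ∈ (K ρ).powerset, ENNReal.ofReal (C / √((k : ℝ) + 1)) *
          (R * (amean μ (j, false) ^ S.card * amean μ (j, true) ^ (k - S.card))) := by
        rw [← Finset.mul_sum, ← Finset.mul_sum, add_pow, Finset.sum_powerset_apply_card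
          (fun u => amean μ (j, false) ^ u * amean μ (j, true) ^ (k - u))]
        congr 2
        exact Finset.sum_congr rfl fun u _ => by rw [nsmul_eq_mul]; ring
    _ = _ := Finset.sum_congr rfl fun S hS => by
        rw [hgw S hS]
        congr 1
        rw [show cuts δ m j (ext' (resign j (K ρ) S ρ)) = K ρ from hKeq ρ S]

lemma exists_psi_const (hμ : Elliptic μ) : ∃ C > (0 : ℝ), ∀ (j : Fin d) (k s : ℕ),
    (k.choose s : ℝ≥0∞) * (amean μ (j, false) ^ s * amean μ (j, true) ^ (k - s)) ≤
      ENNReal.ofReal (C / √((k : ℝ) + 1)) * (amean μ (j, false) + amean μ (j, true)) ^ k := by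
  choose C hC hb using fun j : Fin d =>
    binom_weight_le (amean_ne_zero hμ (j, false)) (amean_ne_zero hμ (j, true))
      (amean_ne_top hμ (j, false)) (amean_ne_top hμ (j, true))
  refine ⟨∑ j, C j, Finset.sum_pos (fun j _ => hC j) Finset.univ_nonempty, fun j k s => ?_⟩
  refine le_trans (hb j k s) (mul_le_mul' (ENNReal.ofReal_le_ofReal ?_) le_rfl)
  gcongr
  exact Finset.single_le_sum (fun i _ => (hC i).le) (Finset.mem_univ j)

/-- The walk at time `m` hits a given site with at most `psi` times the chance of its level. -/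
theorem concentration (hμ : Elliptic μ) : ∃ C > (0 : ℝ), ∀ (δ : Step d) (m : ℕ)
    (g : (ℕ → Step d) → ℝ≥0∞), (∀ η η', Like δ m η η' → g η = g η') → ∀ v : Pos d,
    ∫⁻ η, {η : ℕ → Step d | pos η m = v}.indicator g η ∂nu μ ≤
      ∫⁻ η, {η : ℕ → Step d | hgt δ η m = ht δ v}.indicator (fun η => g η * psi C δ m η) η
        ∂nu μ := by
  classical
  obtain ⟨C, hC, hb⟩ := exists_psi_const hμ
  refine ⟨C, hC, fun δ m g hg v => ?_⟩
  have main : ∀ J : Finset (Fin d), J ⊆ Finset.univ.erase δ.1 →
      ∀ g : (ℕ → Step d) → ℝ≥0∞, (∀ η η', Like δ m η η' → g η = g η') →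
      (∑ σ : Fin m → Step d, (if hgt δ (ext' σ) m = ht δ v ∧ ∀ j ∈ J, pos (ext' σ) m j = v j
        then g (ext' σ) * w μ m (ext' σ) else 0)) ≤
      ∑ σ : Fin m → Step d, (if hgt δ (ext' σ) m = ht δ v then
        (g (ext' σ) * ∏ j ∈ J, ENNReal.ofReal (C / √(((cuts δ m j (ext' σ)).card : ℝ) + 1))) *
          w μ m (ext' σ) else 0) := by
    intro J
    induction J using Finset.induction with
    | empty => intro _ g _; simp
    | insert j J hjJ ih =>
      intro hJ g hg
      have hone := one_coord hμ δ j (hb j) m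
        (fun η => if hgt δ η m = ht δ v ∧ ∀ i ∈ J, pos η m i = v i then g η else 0) ?_ (v j)
      · refine le_trans (le_of_eq_of_le ?_ hone) (le_of_eq_of_le ?_ ((ih
          (fun i hi => hJ (Finset.mem_insert_of_mem hi))
          (fun η => g η * ENNReal.ofReal (C / √(((cuts δ m j η).card : ℝ) + 1)))
          fun η η' h => by rw [hg η η' h, h.cuts_eq j]).trans (le_of_eq ?_)))
        · refine Finset.sum_congr rfl fun σ _ => ?_
          simp only [Finset.forall_mem_insert]
          split_ifs with h1 h2 h3 <;> first | rfl | tauto | simp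
        · refine Finset.sum_congr rfl fun σ _ => ?_
          split_ifs <;> ring
        · refine Finset.sum_congr rfl fun σ _ => ?_
          rw [Finset.prod_insert hjJ]
          split_ifs <;> ring
      · intro σ S
        have hl : Like δ m (ext' σ) (ext' (resign j (cuts δ m j (ext' σ)) S σ)) := fun t ht => by
          simp only [ext'_lt _ ht, resign]
          by_cases h : t ∈ cuts δ m j (ext' σ)
          · rw [if_pos h]
            have h' := mem_cuts.mp h
            rw [ext'_lt _ ht] at h'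
            exact ⟨h'.2, fun hc => absurd h'.1 hc⟩
          · rw [if_neg h]
            exact ⟨rfl, fun _ => rfl⟩
        have hoth : ∀ i ∈ J, pos (ext' (resign j (cuts δ m j (ext' σ)) S σ)) m i
            = pos (ext' σ) m i := fun i hi => by
          rw [pos_eq_sum, pos_eq_sum, Finset.sum_apply, Finset.sum_apply]
          refine Finset.sum_congr rfl fun t ht => ?_
          rw [Finset.mem_range] at ht
          simp only [ext'_lt _ ht, resign]
          by_cases h : t ∈ cuts δ m j (ext' σ)
          · have h' := (mem_cuts.mp h).2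
            rw [ext'_lt _ ht] at h'
            have hij : i ≠ j := fun e => hjJ (e ▸ hi)
            rw [if_pos h, vec, vec, h', Pi.single_eq_of_ne hij, Pi.single_eq_of_ne hij]
          · rw [if_neg h]
        simp only [← hl.hgt_eq m le_rfl, ← hg _ _ hl]
        refine if_congr (and_congr_right fun _ => forall₂_congr fun i hi => ?_) rfl rfl
        rw [hoth i hi]
  have hdet : ∀ (P : (ℕ → Step d) → Prop) (f : (ℕ → Step d) → ℝ≥0∞),
      (∀ η η', (∀ t < m, η t = η' t) → (P η ↔ P η')) →
      (∀ η η', (∀ t < m, η t = η' t) → f η = f η') →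
      ∫⁻ η, {η | P η}.indicator f η ∂nu μ
        = ∑ σ : Fin m → Step d, if P (ext' σ) then f (ext' σ) * w μ m (ext' σ) else 0 := by
    intro P f hP hf
    rw [lintegral_det (H := m)]
    · refine Finset.sum_congr rfl fun σ _ => ?_
      simp only [Set.indicator, Set.mem_ofPred_eq]
      split_ifs <;> simp
    · intro η η' h
      simp only [Set.indicator, Set.mem_ofPred_eq]
      exact if_congr (hP η η' h) (hf η η' h) rfl
  have hg' : ∀ η η', (∀ t < m, η t = η' t) → g η = g η' := fun η η' h => hg _ _ (like_of_agree h)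
  rw [hdet (fun η => pos η m = v) g (fun η η' h => by rw [pos_congr h]) hg',
    hdet (fun η => hgt δ η m = ht δ v) (fun η => g η * psi C δ m η)
      (fun η η' h => by rw [hgt_congr δ h])
      (fun η η' h => by rw [hg' η η' h, (like_of_agree h).psi_eq C])]
  refine le_trans (Finset.sum_le_sum fun σ _ => ?_) (le_trans (main _ (Finset.Subset.refl _) g hg)
    (Finset.sum_le_sum fun σ _ => le_of_eq ?_))
  · split_ifs with h1 h2
    · exact le_rfl
    · exact absurd ⟨by rw [hgt, h1], fun j _ => by rw [h1]⟩ h2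
    · exact zero_le
    · exact le_rfl
  · simp only [psi]
    split_ifs <;> rfl

end Vale.Agent.P147
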