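import Vale.Agent.P147.Basic

/-!
P147: annealed probabilities of cylinders, their product structure, translation and factorisation.
-/

open MeasureTheory ProbabilityTheory
open scoped ENNReal

noncomputable section

namespace Vale.Agent.P147

variable {d : ℕ}

/-- Step sequences agreeing with `ξ` before time `n`. -/
def cyl (n : ℕ) (ξ : ℕ → Step d) : Set (ℕ → Step d) := {η | ∀ t < n, η t = ξ t}

/-- The sequence equal to `ξ` before time `n` and to `ζ` afterwards. -/
def glue (n : ℕ) (ξ ζ : ℕ → Step d) (t : ℕ) : Step d := if t < n then ξ t else ζ (t - n)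

/-- Forgetting the first `n` steps. -/
def shift (n : ℕ) (η : ℕ → Step d) (t : ℕ) : Step d := η (n + t)

/-- Quenched probability of a cylinder. -/
def W (n : ℕ) (ξ : ℕ → Step d) (ω : Env d) : ℝ≥0∞ :=
  ∏ t ∈ Finset.range n, ENNReal.ofReal (ω (pos ξ t) (ξ t))

/-- The times before `n` at which the site `x` is left. -/
def times (n : ℕ) (ξ : ℕ → Step d) (x : Pos d) : Finset ℕ :=
  (Finset.range n).filter (fun t => pos ξ t = x)

/-- The moment of one row along the times in `T`. -/
def Mo (μ : Measure (Step d → ℝ)) (T : Finset ℕ) (ξ : ℕ → Step d) : ℝ≥0∞ :=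
  ∫⁻ p, ∏ t ∈ T, ENNReal.ofReal (p (ξ t)) ∂μ

/-- The annealed conditional weight of the step at time `t`. -/
def Rr (μ : Measure (Step d → ℝ)) (ξ : ℕ → Step d) (t : ℕ) : ℝ≥0∞ :=
  Mo μ (insert t (times t ξ (pos ξ t))) ξ / Mo μ (times t ξ (pos ξ t)) ξ

lemma pos_congr {ξ ξ' : ℕ → Step d} {n : ℕ} (h : ∀ t < n, ξ t = ξ' t) : pos ξ n = pos ξ' n := by
  induction n with
  | zero => rfl
  | succ n ih => rw [pos, pos, ih fun t ht => h t (by omega), h n (by omega)]

lemma glue_lt {n : ℕ} {ξ ζ : ℕ → Step d} {t : ℕ} (h : t < n) : glue n ξ ζ t = ξ t := if_pos h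

lemma glue_add (n : ℕ) (ξ ζ : ℕ → Step d) (t : ℕ) : glue n ξ ζ (n + t) = ζ t := by
  simp [glue]

lemma pos_glue_le {n : ℕ} {ξ ζ : ℕ → Step d} {t : ℕ} (h : t ≤ n) :
    pos (glue n ξ ζ) t = pos ξ t := pos_congr fun s hs => glue_lt (by omega)

lemma pos_add (η : ℕ → Step d) (n t : ℕ) : pos η (n + t) = pos η n + pos (shift n η) t := by
  induction t with
  | zero => simp [pos]
  | succ t ih => rw [← add_assoc, pos, ih, pos, add_assoc, shift]

lemma pos_glue_add (n : ℕ) (ξ ζ : ℕ → Step d) (t : ℕ) :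
    pos (glue n ξ ζ) (n + t) = pos ξ n + pos ζ t := by
  rw [pos_add, pos_glue_le le_rfl]
  congr 1
  exact pos_congr fun s _ => glue_add n ξ ζ s

lemma measurableSet_cyl (n : ℕ) (ξ : ℕ → Step d) : MeasurableSet (cyl n ξ) := by
  have : cyl n ξ = ⋂ t, ⋂ (_ : t < n), (fun η : ℕ → Step d => η t) ⁻¹' {ξ t} := by
    ext η; simp [cyl]
  rw [this]
  exact MeasurableSet.iInter fun t => MeasurableSet.iInter fun _ =>
    measurable_pi_apply t (MeasurableSet.singleton _)

lemma measurable_shift (n : ℕ) : Measurable (shift (d := d) n) :=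
  measurable_pi_lambda _ fun t => measurable_pi_apply (n + t)

lemma cyl_inter_shift (n m : ℕ) (ξ ζ : ℕ → Step d) :
    cyl n ξ ∩ shift n ⁻¹' cyl m ζ = cyl (n + m) (glue n ξ ζ) := by
  ext η
  simp only [Set.mem_inter_iff, Set.mem_preimage, cyl, Set.mem_setOf_eq, shift]
  constructor
  · rintro ⟨h1, h2⟩ t ht
    rcases lt_or_ge t n with h | h
    · rw [glue_lt h]; exact h1 t h
    · obtain ⟨s, rfl⟩ := Nat.exists_eq_add_of_le h
      rw [glue_add]; exact h2 s (by omega)
  · intro h
    exact ⟨fun t ht => by rw [h t (by omega), glue_lt ht],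
      fun t ht => by rw [h (n + t) (by omega), glue_add]⟩

lemma W_glue (n m : ℕ) (ξ ζ : ℕ → Step d) (ω : Env d) :
    W (n + m) (glue n ξ ζ) ω = W n ξ ω * W m ζ (fun x => ω (x + pos ξ n)) := by
  rw [W, Finset.prod_range_add]
  congr 1
  · refine Finset.prod_congr rfl fun t ht => ?_
    rw [Finset.mem_range] at ht
    rw [pos_glue_le ht.le, glue_lt ht]
  · refine Finset.prod_congr rfl fun t _ => ?_
    rw [pos_glue_add, glue_add, add_comm]

lemma measurable_W (n : ℕ) (ξ : ℕ → Step d) : Measurable (W n ξ) := by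
  unfold W; fun_prop

/-- Two finite measures on step sequences agreeing on cylinders are equal. -/
lemma ext_cyl {m₁ m₂ : Measure (ℕ → Step d)} [IsFiniteMeasure m₁] [IsFiniteMeasure m₂]
    (h : ∀ n ξ, m₁ (cyl n ξ) = m₂ (cyl n ξ)) : m₁ = m₂ := by
  rcases isEmpty_or_nonempty (Step d) with he | ⟨⟨e₀⟩⟩
  · ext s _
    simp [Subsingleton.elim s ∅]
  set C : Set (Set (ℕ → Step d)) := {∅} ∪ Set.range (fun q : ℕ × (ℕ → Step d) => cyl q.1 q.2)
  refine ext_of_generate_finite C ?_ ?_ ?_ ?_
  · refine le_antisymm ?_ (MeasurableSpace.generateFrom_le ?_)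
    · refine iSup_le fun t => MeasurableSpace.comap_le_iff_le_map.mpr fun S _ => ?_
      show MeasurableSet[MeasurableSpace.generateFrom C] ((fun η : ℕ → Step d => η t) ⁻¹' S)
      have : (fun η : ℕ → Step d => η t) ⁻¹' S = ⋃ σ : Fin (t + 1) → Step d,
          ⋃ (_ : σ (Fin.last t) ∈ S), cyl (t + 1) (fun s => if hs : s < t + 1 then σ ⟨s, hs⟩ else e₀) := by
        ext η
        simp only [Set.mem_preimage, Set.mem_iUnion, cyl, Set.mem_setOf_eq, exists_prop]
        constructor
        · exact fun hη => ⟨fun s => η s, hη, fun s hs => by simp [hs]⟩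
        · rintro ⟨σ, hσ, hη⟩
          rw [hη t (by omega), dif_pos (by omega)]
          exact hσ
      rw [this]
      exact MeasurableSet.iUnion fun σ => MeasurableSet.iUnion fun _ =>
        MeasurableSpace.measurableSet_generateFrom (Or.inr ⟨(_, _), rfl⟩)
    · rintro s (rfl | ⟨q, rfl⟩)
      · exact MeasurableSet.empty
      · exact measurableSet_cyl _ _
  · rintro s hs t ht hne
    rcases hs with rfl | ⟨⟨n, ξ⟩, rfl⟩
    · simp at hne
    rcases ht with rfl | ⟨⟨m, ζ⟩, rfl⟩
    · simp at hne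
    obtain ⟨η, h1, h2⟩ := hne
    refine Or.inr ⟨(max n m, η), ?_⟩
    ext θ
    simp only [cyl, Set.mem_inter_iff, Set.mem_setOf_eq] at *
    exact ⟨fun h => ⟨fun t ht => by rw [h t (by omega), h1 t ht],
      fun t ht => by rw [h t (by omega), h2 t ht]⟩,
      fun h t ht => (lt_max_iff.mp ht).elim (fun hn => by rw [h.1 t hn, h1 t hn])
        (fun hm => by rw [h.2 t hm, h2 t hm])⟩
  · rintro s (rfl | ⟨q, rfl⟩)
    · simp
    · exact h _ _
  · have := h 0 (fun _ => e₀)
    simpa [cyl] using this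

variable [NeZero d]

/-- The law of the step sequence. -/
def nu (μ : Measure (Step d → ℝ)) : Measure (ℕ → Step d) := (annealed μ).map stepsOf

/-- The law of the step sequence with environments weighted by `f`. -/
def nuF (μ : Measure (Step d → ℝ)) (f : Env d → ℝ≥0∞) : Measure (ℕ → Step d) :=
  (((Measure.infinitePi fun _ : Pos d => μ).withDensity f).prod
    (Measure.infinitePi fun _ : ℕ => unif)).map stepsOf

/-- Annealed probability of a cylinder. -/
def w (μ : Measure (Step d → ℝ)) (n : ℕ) (ξ : ℕ → Step d) : ℝ≥0∞ := nu μ (cyl n ξ)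

variable {μ : Measure (Step d → ℝ)}

lemma nu_eq_nuF : nu μ = nuF μ 1 := by rw [nu, nuF, withDensity_one, annealed]

lemma isProbabilityMeasure_nu (hμ : Elliptic μ) : IsProbabilityMeasure (nu μ) := by
  have := hμ.1
  unfold nu annealed
  exact Measure.isProbabilityMeasure_map measurable_stepsOf.aemeasurable

lemma ae_rows (hμ : Elliptic μ) : ∀ᵐ ω ∂(Measure.infinitePi fun _ : Pos d => μ),
    ∀ x, (∀ e, 0 < ω x e) ∧ ∑ e, ω x e = 1 := by
  have := hμ.1
  exact ae_all_iff.mpr fun x =>
    (measurePreserving_eval_infinitePi (fun _ : Pos d => μ) x).quasiMeasurePreserving.ae hμ.2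

lemma stepsOf_mem_cyl (q : Env d × (ℕ → ℝ)) (n : ℕ) (ξ : ℕ → Step d) :
    stepsOf q ∈ cyl n ξ ↔ ∀ t < n, choose (q.1 (pos ξ t)) (q.2 t) = ξ t := by
  induction n with
  | zero => simp [cyl]
  | succ n ih =>
    have key : stepsOf q ∈ cyl n ξ → stepsOf q n = choose (q.1 (pos ξ n)) (q.2 n) := fun h => by
      rw [← pos_congr h, pos_stepsOf]; rfl
    constructor
    · intro h t ht
      have h' : stepsOf q ∈ cyl n ξ := fun s hs => h s (by omega)
      rcases Nat.lt_succ_iff_lt_or_eq.mp ht with ht' | rfl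
      · exact ih.mp h' t ht'
      · rw [← key h']; exact h t ht
    · intro h t ht
      have h' : stepsOf q ∈ cyl n ξ := ih.mpr fun s hs => h s (by omega)
      rcases Nat.lt_succ_iff_lt_or_eq.mp ht with ht' | rfl
      · exact h' t ht'
      · rw [key h']; exact h t ht

lemma nuF_cyl (hμ : Elliptic μ) {f : Env d → ℝ≥0∞} (hf : Measurable f) (n : ℕ) (ξ : ℕ → Step d) :
    nuF μ f (cyl n ξ) = ∫⁻ ω, f ω * W n ξ ω ∂(Measure.infinitePi fun _ : Pos d => μ) := by
  have := hμ.1
  rw [nuF, Measure.map_apply measurable_stepsOf (measurableSet_cyl n ξ),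
    Measure.prod_apply (measurable_stepsOf (measurableSet_cyl n ξ)),
    lintegral_withDensity_eq_lintegral_mul _ hf
      (measurable_measure_prodMk_left (measurable_stepsOf (measurableSet_cyl n ξ)))]
  refine lintegral_congr_ae ?_
  filter_upwards [ae_rows hμ] with ω hω
  simp only [Pi.mul_apply]
  congr 1
  have hpre : Prod.mk ω ⁻¹' (stepsOf ⁻¹' cyl n ξ)
      = Set.pi ↑(Finset.range n) (fun t => {v | choose (ω (pos ξ t)) v = ξ t}) := by
    ext u; simp [stepsOf_mem_cyl]
  rw [hpre, Measure.infinitePi_pi _ fun t _ => ?_]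
  · exact Finset.prod_congr rfl fun t _ =>
      unif_choose (fun e => ((hω _).1 e).le) (hω _).2 _
  · exact measurable_choose.comp (measurable_const.prodMk measurable_id)
      (MeasurableSet.singleton (ξ t))

lemma w_eq_lintegral (hμ : Elliptic μ) (n : ℕ) (ξ : ℕ → Step d) :
    w μ n ξ = ∫⁻ ω, W n ξ ω ∂(Measure.infinitePi fun _ : Pos d => μ) := by
  rw [w, nu_eq_nuF, nuF_cyl hμ (f := 1) measurable_one]
  simp

lemma Mo_ne_zero (hμ : Elliptic μ) (T : Finset ℕ) (ξ : ℕ → Step d) : Mo μ T ξ ≠ 0 := by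
  have := hμ.1
  intro h
  rw [Mo, lintegral_eq_zero_iff (by fun_prop)] at h
  have h2 : ∀ᵐ _p ∂μ, False := by
    filter_upwards [h, hμ.2] with p hp hpos
    have : 0 < ∏ t ∈ T, ENNReal.ofReal (p (ξ t)) :=
      pos_iff_ne_zero.mpr (Finset.prod_ne_zero_iff.mpr fun t _ =>
        (ENNReal.ofReal_pos.mpr (hpos.1 _)).ne')
    exact this.ne' hp
  rw [ae_iff] at h2
  simp at h2

lemma Mo_ne_top (hμ : Elliptic μ) (T : Finset ℕ) (ξ : ℕ → Step d) : Mo μ T ξ ≠ ∞ := by
  have := hμ.1
  refine ne_top_of_le_ne_top (b := 1) ENNReal.one_ne_top ?_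
  calc Mo μ T ξ ≤ ∫⁻ _p, 1 ∂μ := by
        refine lintegral_mono_ae ?_
        filter_upwards [hμ.2] with p hp
        refine Finset.prod_le_one' fun t _ => ENNReal.ofReal_le_one.mpr ?_
        rw [← hp.2]
        exact Finset.single_le_sum (fun e _ => (hp.1 e).le) (Finset.mem_univ _)
    _ = 1 := by simp

lemma W_eq_sites (n : ℕ) (ξ : ℕ → Step d) (ω : Env d) :
    W n ξ ω = ∏ x ∈ (Finset.range n).image (pos ξ),
      ∏ t ∈ times n ξ x, ENNReal.ofReal (ω x (ξ t)) := by
  rw [W, ← Finset.prod_fiberwise_of_maps_to (fun t ht => Finset.mem_image_of_mem (pos ξ) ht)]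
  refine Finset.prod_congr rfl fun x _ => Finset.prod_congr rfl fun t ht => ?_
  rw [(Finset.mem_filter.mp ht).2]

lemma w_eq_sites (hμ : Elliptic μ) (n : ℕ) (ξ : ℕ → Step d) (S : Finset (Pos d))
    (hS : (Finset.range n).image (pos ξ) ⊆ S) :
    w μ n ξ = ∏ x ∈ S, Mo μ (times n ξ x) ξ := by
  have := hμ.1
  have hrest : ∀ x, x ∉ (Finset.range n).image (pos ξ) → times n ξ x = ∅ := fun x hx =>
    Finset.filter_eq_empty_iff.mpr fun t ht h => hx (h ▸ Finset.mem_image_of_mem _ ht)
  rw [w_eq_lintegral hμ]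
  calc ∫⁻ ω, W n ξ ω ∂(Measure.infinitePi fun _ : Pos d => μ)
      = ∫⁻ ω, ∏ x ∈ S, ∏ t ∈ times n ξ x, ENNReal.ofReal (ω x (ξ t))
          ∂(Measure.infinitePi fun _ : Pos d => μ) := by
        refine lintegral_congr fun ω => ?_
        rw [W_eq_sites]
        exact Finset.prod_subset hS fun x _ hx => by simp [hrest x hx]
    _ = ∏ x ∈ S, ∫⁻ ω, ∏ t ∈ times n ξ x, ENNReal.ofReal (ω x (ξ t))
          ∂(Measure.infinitePi fun _ : Pos d => μ) := by
        refine lintegral_prod_eq_prod_lintegral_of_indepFun S _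
          (iIndepFun_infinitePi
            (X := fun x (p : Step d → ℝ) => ∏ t ∈ times n ξ x, ENNReal.ofReal (p (ξ t)))
            fun x => by fun_prop) fun x => by fun_prop
    _ = _ := by
        refine Finset.prod_congr rfl fun x _ => ?_
        exact (measurePreserving_eval_infinitePi (fun _ : Pos d => μ) x).lintegral_comp
          (f := fun p => ∏ t ∈ times n ξ x, ENNReal.ofReal (p (ξ t))) (by fun_prop)

lemma w_eq_prod (hμ : Elliptic μ) (n : ℕ) (ξ : ℕ → Step d) :
    w μ n ξ = ∏ t ∈ Finset.range n, Rr μ ξ t := by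
  induction n with
  | zero =>
    rw [w_eq_sites hμ 0 ξ ∅ (by simp)]
    simp
  | succ n ih =>
    set S := (Finset.range (n + 1)).image (pos ξ) with hS
    have hx : pos ξ n ∈ S := Finset.mem_image_of_mem _ (by simp)
    rw [w_eq_sites hμ (n + 1) ξ S (le_refl S), Finset.prod_range_succ, ← ih,
      w_eq_sites hμ n ξ S (Finset.image_subset_image (Finset.range_mono (Nat.le_succ n))),
      ← Finset.mul_prod_erase S _ hx, ← Finset.mul_prod_erase S _ hx, Rr]
    have h1 : times (n + 1) ξ (pos ξ n) = insert n (times n ξ (pos ξ n)) := by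
      simp [times, Finset.range_add_one, Finset.filter_insert]
    have h2 : ∀ x ∈ S.erase (pos ξ n), Mo μ (times (n + 1) ξ x) ξ = Mo μ (times n ξ x) ξ := by
      intro x hx'
      congr 1
      simp [times, Finset.range_add_one, Finset.filter_insert, (Finset.ne_of_mem_erase hx').symm]
    rw [h1, Finset.prod_congr rfl h2, mul_right_comm, mul_comm (Mo μ (times n ξ (pos ξ n)) ξ),
      ENNReal.div_mul_cancel (Mo_ne_zero hμ _ _) (Mo_ne_top hμ _ _)]

lemma Rr_eq {ξ : ℕ → Step d} {t : ℕ} (h : times t ξ (pos ξ t) = ∅) (hμ : Elliptic μ) :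
    Rr μ ξ t = ∫⁻ p, ENNReal.ofReal (p (ξ t)) ∂μ := by
  have := hμ.1
  rw [Rr, h]
  simp [Mo]

lemma translate_invariant (hμ : Elliptic μ) (z : Pos d) :
    MeasurePreserving (fun (ω : Env d) x => ω (x + z))
      (Measure.infinitePi fun _ : Pos d => μ) (Measure.infinitePi fun _ : Pos d => μ) := by
  have := hμ.1
  refine ⟨by fun_prop, ?_⟩
  conv_rhs => rw [← Measure.infinitePi_map_piCongrLeft (fun _ : Pos d => μ) (Equiv.addRight (-z))]
  congr 1
  funext ω x
  have : x = (Equiv.addRight (-z)) (x + z) := by simp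
  conv_rhs => rw [this, MeasurableEquiv.piCongrLeft_apply_apply]

/-- The law after `n` steps, on the event of following `ξ`, is a weighted law from the origin. -/
lemma map_shift_eq (hμ : Elliptic μ) (n : ℕ) (ξ : ℕ → Step d) :
    ((nu μ).restrict (cyl n ξ)).map (shift n) =
      nuF μ (fun ω => W n ξ (fun x => ω (x - pos ξ n))) := by
  have := hμ.1
  have := isProbabilityMeasure_nu hμ
  have hf : Measurable (fun ω : Env d => W n ξ (fun x => ω (x - pos ξ n))) :=
    (measurable_W n ξ).comp (by fun_prop)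
  have : IsFiniteMeasure (nuF μ (fun ω : Env d => W n ξ (fun x => ω (x - pos ξ n)))) := by
    refine ⟨lt_of_le_of_lt (le_of_eq ?_) (measure_lt_top (nu μ) (cyl n ξ))⟩
    rw [show (Set.univ : Set (ℕ → Step d)) = cyl 0 ξ by simp [cyl], nuF_cyl hμ hf]
    change _ = w μ n ξ
    rw [w_eq_lintegral hμ, ← (translate_invariant hμ (-pos ξ n)).lintegral_comp (measurable_W n ξ)]
    simp [W, sub_eq_add_neg]
  refine ext_cyl fun m ζ => ?_
  rw [Measure.map_apply (measurable_shift n) (measurableSet_cyl m ζ),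
    Measure.restrict_apply (measurable_shift n (measurableSet_cyl m ζ)), Set.inter_comm,
    cyl_inter_shift, nuF_cyl hμ hf]
  change w μ (n + m) (glue n ξ ζ) = _
  rw [w_eq_lintegral hμ,
    ← (translate_invariant hμ (-pos ξ n)).lintegral_comp (measurable_W (n + m) (glue n ξ ζ))]
  refine lintegral_congr fun ω => ?_
  rw [W_glue]
  simp [sub_eq_add_neg]

/-- After any prefix the future is dominated by a fresh walk. -/
lemma prefix_le (hμ : Elliptic μ) (n : ℕ) (ξ : ℕ → Step d) {F : Set (ℕ → Step d)}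
    (hF : MeasurableSet F) : nu μ (cyl n ξ ∩ shift n ⁻¹' F) ≤ nu μ F := by
  have := hμ.1
  rw [Set.inter_comm, ← Measure.restrict_apply (measurable_shift n hF),
    ← Measure.map_apply (measurable_shift n) hF, map_shift_eq hμ, nu_eq_nuF, nuF, nuF,
    Measure.map_apply measurable_stepsOf hF, Measure.map_apply measurable_stepsOf hF,
    Measure.prod_apply (measurable_stepsOf hF), Measure.prod_apply (measurable_stepsOf hF)]
  refine lintegral_mono' (withDensity_mono ?_) le_rfl
  filter_upwards [ae_rows hμ] with ω hω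
  refine Finset.prod_le_one' fun t _ => ENNReal.ofReal_le_one.mpr ?_
  rw [← (hω _).2]
  exact Finset.single_le_sum (fun e _ => ((hω _).1 e).le) (Finset.mem_univ _)

end Vale.Agent.P147
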