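import Vale.Agent.P147.Flip

/-!
P147: regeneration levels with a fixed pattern, and a renewal bound on their number.
-/

open MeasureTheory
open scoped ENNReal

noncomputable section

namespace Vale.Agent.P147

variable {d : ℕ}

/-- Length of the regeneration pattern. -/
abbrev patLen (d : ℕ) : ℕ := 2 * (d - 1) + 1

variable [NeZero d]

/-- The pattern: rises along `δ` alternating with one lateral step in every other coordinate. -/
def pat (δ : Step d) (t : ℕ) : Step d :=
  if t % 2 = 0 then δ else (δ.1 + Fin.ofNat d (t / 2 + 1), true)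

lemma lat_ne (δ : Step d) {i : ℕ} (hi : i < d - 1) : δ.1 + Fin.ofNat d (i + 1) ≠ δ.1 := by
  intro h
  rw [add_eq_left] at h
  have := congrArg Fin.val h
  simp only [Fin.val_ofNat, Fin.val_zero] at this
  rw [Nat.mod_eq_of_lt (by omega)] at this
  omega

lemma lat_surj (δ : Step d) {j : Fin d} (hj : j ≠ δ.1) :
    ∃ i < d - 1, δ.1 + Fin.ofNat d (i + 1) = j := by
  have hv : ((j - δ.1).val) ≠ 0 := fun h => hj (sub_eq_zero.mp (Fin.ext h))
  have := (j - δ.1).isLt
  refine ⟨(j - δ.1).val - 1, by omega, ?_⟩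
  rw [Nat.sub_add_cancel (Nat.one_le_iff_ne_zero.mpr hv),
    show Fin.ofNat d (j - δ.1).val = j - δ.1 from Fin.ext (by simp [Nat.mod_eq_of_lt this])]
  abel

lemma hgt_pat (δ : Step d) : ∀ t, t ≤ patLen d → hgt δ (pat δ) t = ((t + 1) / 2 : ℕ) := by
  intro t
  induction t with
  | zero => simp
  | succ t ih =>
    intro ht'
    rw [hgt_succ, ih (by omega)]
    by_cases h : t % 2 = 0
    · rw [pat, if_pos h, ht_vec_self]
      omega
    · rw [pat, if_neg h, ht_vec_lat (lat_ne δ (i := t / 2) (by unfold patLen at ht'; omega))]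
      omega

/-- Level `i` is reached at time `p` and followed by the pattern. -/
def Pre (δ : Step d) (i p : ℕ) : Set (ℕ → Step d) :=
  Hit δ i p ∩ shift p ⁻¹' cyl (patLen d) (pat δ)

/-- `i` is a regeneration level. -/
def Reg (δ : Step d) (i : ℕ) : Set (ℕ → Step d) :=
  {η | ∃ p, η ∈ Pre δ i p ∧ shift (p + patLen d) η ∈ NoBack δ}

/-- The event that `i` looks like a regeneration level up to time `H`. -/
def RegBy (δ : Step d) (i H : ℕ) : Set (ℕ → Step d) :=
  {η | ∃ p, p + patLen d ≤ H ∧ η ∈ Pre δ i p ∧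
    ∀ t, p + patLen d ≤ t → t ≤ H → (i : ℤ) + d ≤ hgt δ η t}

/-- No regeneration level below `g`. -/
def NoReg (δ : Step d) (g : ℕ) : Set (ℕ → Step d) := {η | ∀ i < g, η ∉ Reg δ i}

open Classical in
/-- The number of regeneration levels below `M`. -/
def regNum (δ : Step d) (M : ℕ) (η : ℕ → Step d) : ℕ :=
  ((Finset.range M).filter (fun i => η ∈ Reg δ i)).card

open Classical in
/-- The number of levels below `j` that look like regenerations up to time `H`. -/
def regNumBy (δ : Step d) (j H : ℕ) (η : ℕ → Step d) : ℕ :=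
  ((Finset.range j).filter (fun i => η ∈ RegBy δ i H)).card

variable {δ : Step d}

lemma pre_hgt {i p : ℕ} {η : ℕ → Step d} (h : η ∈ Pre δ i p) {u : ℕ} (hu : u ≤ patLen d) :
    hgt δ η (p + u) = (i : ℤ) + ((u + 1) / 2 : ℕ) := by
  rw [hgt_add, h.1.1, ← hgt_pat δ u hu]
  congr 1
  exact hgt_congr δ fun s hs => h.2 s (by omega)

lemma pre_hgt_end {i p : ℕ} {η : ℕ → Step d} (h : η ∈ Pre δ i p) :
    hgt δ η (p + patLen d) = (i : ℤ) + d := by
  rw [pre_hgt h le_rfl]
  have := NeZero.pos d
  unfold patLen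
  omega

lemma pre_hgt_lt {i p : ℕ} {η : ℕ → Step d} (h : η ∈ Pre δ i p) {t : ℕ} (ht : t < p + patLen d) :
    hgt δ η t < (i : ℤ) + d := by
  rcases lt_or_ge t p with ht' | ht'
  · have := h.1.2 t ht'
    omega
  · obtain ⟨u, rfl⟩ := Nat.exists_eq_add_of_le ht'
    rw [pre_hgt h (u := u) (by omega)]
    have := NeZero.pos d
    unfold patLen at ht
    omega

lemma pre_unique {i p p' : ℕ} {η : ℕ → Step d} (h : η ∈ Pre δ i p) (h' : η ∈ Pre δ i p') :
    p = p' := hit_unique h.1 h'.1

lemma detBy_pre (i p : ℕ) : DetBy (p + patLen d) (Pre δ i p) :=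
  (detBy_hit δ _ (Nat.le_add_right _ _)).inter (detBy_shift_cyl _)

lemma measurableSet_reg (i : ℕ) : MeasurableSet (Reg δ i) := by
  have : Reg δ i = ⋃ p, Pre δ i p ∩ shift (p + patLen d) ⁻¹' NoBack δ := by
    ext η; simp [Reg]
  rw [this]
  exact MeasurableSet.iUnion fun p =>
    (detBy_pre i p).measurableSet.inter (measurable_shift _ (measurableSet_noBack δ))

lemma measurableSet_noReg (g : ℕ) : MeasurableSet (NoReg δ g) := by
  have : NoReg δ g = ⋂ i, ⋂ (_ : i < g), (Reg δ i)ᶜ := by ext η; simp [NoReg]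
  rw [this]
  exact MeasurableSet.iInter fun i => MeasurableSet.iInter fun _ => (measurableSet_reg i).compl

lemma detBy_regBy (i H : ℕ) : DetBy H (RegBy δ i H) := by
  rintro η η' he ⟨p, hp, hpre, hfut⟩
  refine ⟨p, hp, (detBy_pre i p).mono hp η η' he hpre, fun t h1 h2 => ?_⟩
  rw [← hgt_congr δ fun s hs => he s (by omega)]
  exact hfut t h1 h2

lemma regNumBy_congr {j H : ℕ} {η η' : ℕ → Step d} (he : ∀ t < H, η t = η' t) :
    regNumBy δ j H η = regNumBy δ j H η' := by
  unfold regNumBy
  congr 1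
  ext i
  simp only [Finset.mem_filter]
  exact and_congr_right fun _ => ⟨detBy_regBy i H η η' he,
    detBy_regBy i H η' η fun t ht => (he t ht).symm⟩

lemma regNum_eq_by {j p : ℕ} {η : ℕ → Step d} (h : η ∈ Pre δ j p)
    (hfut : shift (p + patLen d) η ∈ NoBack δ) :
    regNum δ j η = regNumBy δ j (p + patLen d) η := by
  unfold regNum regNumBy
  congr 1
  ext i
  simp only [Finset.mem_filter, Finset.mem_range]
  refine and_congr_right fun hij => ?_
  constructor
  · rintro ⟨q, hq, hqf⟩
    have hqp : q < p := by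
      by_contra hc
      rw [not_lt] at hc
      rcases eq_or_lt_of_le hc with rfl | hlt
      · have h1 := hq.1.1; have h2 := h.1.1; omega
      · have h1 := hq.1.2 p hlt; have h2 := h.1.1; omega
    refine ⟨q, by omega, hq, fun t ht1 _ => ?_⟩
    obtain ⟨u, rfl⟩ := Nat.exists_eq_add_of_le ht1
    rw [hgt_add, pre_hgt_end hq]
    have := mem_noBack.mp hqf u
    omega
  · rintro ⟨q, hqH, hq, hqf⟩
    refine ⟨q, hq, mem_noBack.mpr fun u => ?_⟩
    have hend := pre_hgt_end hq
    have hsplit := hgt_add δ η (q + patLen d) u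
    rcases le_or_gt (q + patLen d + u) (p + patLen d) with hle | hlt
    · have := hqf _ (Nat.le_add_right _ u) hle
      omega
    · obtain ⟨v, hv⟩ := Nat.exists_eq_add_of_le hlt.le
      have h1 := mem_noBack.mp hfut v
      have h2 := hgt_add δ η (p + patLen d) v
      rw [← hv, pre_hgt_end h] at h2
      omega

lemma reg_of_shift {j p i : ℕ} {η : ℕ → Step d} (h : η ∈ Pre δ j p)
    (hi : shift (p + patLen d) η ∈ Reg δ i) : η ∈ Reg δ (j + d + i) := by
  obtain ⟨q, ⟨hhit, hcyl⟩, hnb⟩ := hi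
  have hshift : ∀ u, shift (p + patLen d + u) η = shift u (shift (p + patLen d) η) := fun u => by
    funext t; simp [shift, add_assoc]
  refine ⟨p + patLen d + q, ⟨⟨?_, fun t ht => ?_⟩, ?_⟩, ?_⟩
  · rw [hgt_add, pre_hgt_end h, hhit.1]
    push_cast; ring
  · rcases lt_or_ge t (p + patLen d) with ht' | ht'
    · have := pre_hgt_lt h ht'
      push_cast; omega
    · obtain ⟨u, rfl⟩ := Nat.exists_eq_add_of_le ht'
      rw [hgt_add, pre_hgt_end h]
      have := hhit.2 u (by omega)
      push_cast; omega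
  · show shift (p + patLen d + q) η ∈ cyl _ _
    rw [hshift]; exact hcyl
  · rw [add_assoc, hshift]; exact hnb

lemma shift_reg {j j' p : ℕ} {η : ℕ → Step d} (h : η ∈ Pre δ j p) (hr : η ∈ Reg δ j')
    (hjj : j < j') : j + d ≤ j' ∧ shift (p + patLen d) η ∈ Reg δ (j' - j - d) := by
  obtain ⟨q, ⟨hhit, hcyl⟩, hnb⟩ := hr
  have hge : j + d ≤ j' := by
    by_contra hc
    rw [not_le] at hc
    obtain ⟨i, rfl⟩ : ∃ i, j' = j + (i + 1) := ⟨j' - j - 1, by omega⟩
    have hd2 : 2 * i + 1 < patLen d := by unfold patLen; omega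
    have hq : q = p + (2 * i + 1) := by
      refine hit_unique hhit ⟨?_, fun t ht => ?_⟩
      · rw [pre_hgt h hd2.le]
        push_cast
        omega
      · rcases lt_or_ge t p with ht' | ht'
        · have := h.1.2 t ht'
          push_cast; omega
        · obtain ⟨u, rfl⟩ := Nat.exists_eq_add_of_le ht'
          rw [pre_hgt h (by omega)]
          push_cast
          omega
    subst hq
    have e1 := hcyl 0 (by unfold patLen; omega)
    have e2 := h.2 (2 * i + 1) hd2
    rw [shift, add_zero] at e1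
    rw [shift] at e2
    rw [e2, pat, if_neg (by omega), pat, if_pos rfl] at e1
    exact lat_ne δ (i := (2 * i + 1) / 2) (by unfold patLen at hd2; omega) (congrArg Prod.fst e1)
  refine ⟨hge, ?_⟩
  have hqp : p + patLen d ≤ q := by
    by_contra hc
    rw [not_le] at hc
    have := pre_hgt_lt h hc
    rw [hhit.1] at this
    omega
  obtain ⟨r, rfl⟩ := Nat.exists_eq_add_of_le hqp
  have hshift : ∀ u, shift (p + patLen d + u) η = shift u (shift (p + patLen d) η) := fun u => by
    funext t; simp [shift, add_assoc]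
  refine ⟨r, ⟨⟨?_, fun t ht => ?_⟩, ?_⟩, ?_⟩
  · have h1 := hhit.1
    rw [hgt_add, pre_hgt_end h] at h1
    omega
  · have h1 := hhit.2 (p + patLen d + t) (by omega)
    rw [hgt_add, pre_hgt_end h] at h1
    omega
  · show shift r (shift (p + patLen d) η) ∈ cyl _ _
    rw [← hshift]; exact hcyl
  · rw [← hshift, ← add_assoc]; exact hnb

variable {μ : Measure (Step d → ℝ)}

lemma split_pre (hμ : Elliptic μ) {j p : ℕ} {G : Set (ℕ → Step d)}
    (hG : DetBy (p + patLen d) G) (hsub : G ⊆ Pre δ j p) {F : Set (ℕ → Step d)}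
    (hF : MeasurableSet F) :
    nu μ (G ∩ shift (p + patLen d) ⁻¹' (F ∩ NoBack δ)) = nu μ G * nu μ (F ∩ NoBack δ) := by
  refine split hμ hG (fun ξ hξ t htt h => ?_) hF
  have h' : 0 ≤ ht δ (pos ξ t - pos ξ (p + patLen d)) := h
  rw [ht_sub] at h'
  have h1 := pre_hgt_lt (hsub hξ) htt
  have h2 := pre_hgt_end (hsub hξ)
  unfold hgt at h1 h2
  omega

lemma measure_pre (hμ : Elliptic μ) (j p : ℕ) :
    nu μ (Pre δ j p) = nu μ (Hit δ j p) * w μ (patLen d) (pat δ) := by
  refine split_cyl hμ (detBy_hit δ _ le_rfl) fun ξ hξ s hs t htt heq => ?_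
  have h1 := hξ.2 s hs
  rw [hgt, heq, ht_add, show ht δ (pos ξ p) = _ from hξ.1,
    show ht δ (pos (pat δ) t) = _ from hgt_pat δ t htt.le] at h1
  omega

/-- The event of reaching every level. -/
def Unbdd (δ : Step d) : Set (ℕ → Step d) := {η | ∀ j : ℕ, ∃ n, (j : ℤ) ≤ hgt δ η n}

/-- The chance of no regeneration below `g` while never going back. -/
def gapProb (μ : Measure (Step d → ℝ)) (δ : Step d) (g : ℕ) : ℝ≥0∞ :=
  nu μ (NoReg δ g ∩ NoBack δ)

lemma sum_gapProb_le (hμ : Elliptic μ) (G : ℕ) :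
    (nu μ (Unbdd δ) * w μ (patLen d) (pat δ)) * ∑ g ∈ Finset.range (G + 1), gapProb μ δ g ≤ 1 := by
  have := isProbabilityMeasure_nu hμ
  set E : Fin (G + 1) × ℕ → Set (ℕ → Step d) := fun x =>
    Pre δ x.1 x.2 ∩ shift (x.2 + patLen d) ⁻¹' (NoReg δ (G - x.1) ∩ NoBack δ) with hE
  have hdisj : Pairwise (Function.onFun Disjoint E) := by
    rintro ⟨j, p⟩ ⟨j', p'⟩ hne
    refine Set.disjoint_left.mpr fun η hη hη' => ?_
    obtain ⟨h1, h2, h2'⟩ := hη
    obtain ⟨h3, h4, h4'⟩ := hη'
    have hlt : ∀ a b : Fin (G + 1), ∀ q q', (a : ℕ) < b → η ∈ Pre δ a q →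
        shift (q + patLen d) η ∈ NoReg δ (G - a) → η ∈ Pre δ b q' →
        shift (q' + patLen d) η ∈ NoBack δ → False := by
      intro a b q q' hab hq hn hq' hb
      obtain ⟨hge, hreg⟩ := shift_reg hq ⟨q', hq', hb⟩ hab
      exact hn _ (by have := b.isLt; have := NeZero.pos d; omega) hreg
    rcases lt_trichotomy (j : ℕ) j' with h | h | h
    · exact hlt j j' p p' h h1 h2 h3 h4'
    · have : j = j' := Fin.ext h
      subst this
      exact hne (Prod.ext rfl (pre_unique h1 h3))
    · exact hlt j' j p' p h h3 h4 h1 h2'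
  have hmeas : ∀ x, MeasurableSet (E x) := fun x => (detBy_pre _ _).measurableSet.inter
    (measurable_shift _ ((measurableSet_noReg _).inter (measurableSet_noBack δ)))
  have htot := prob_le_one (μ := nu μ) (s := ⋃ x, E x)
  rw [measure_iUnion hdisj hmeas, ENNReal.tsum_prod', tsum_fintype] at htot
  refine le_trans ?_ htot
  rw [Finset.mul_sum, ← Finset.sum_range_reflect, ← Fin.sum_univ_eq_sum_range
    (fun j => nu μ (Unbdd δ) * w μ (patLen d) (pat δ) * gapProb μ δ (G + 1 - 1 - j))]
  refine Finset.sum_le_sum fun j _ => ?_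
  have hEx : ∀ p, nu μ (E (j, p))
      = nu μ (Hit δ (j : ℕ) p) * (w μ (patLen d) (pat δ) * gapProb μ δ (G - j)) := fun p => by
    simp only [hE, gapProb]
    rw [split_pre hμ (detBy_pre _ _) subset_rfl (measurableSet_noReg _), measure_pre hμ, mul_assoc]
  rw [tsum_congr hEx, ENNReal.tsum_mul_right, mul_assoc, Nat.add_sub_cancel]
  refine mul_le_mul' (le_trans (measure_mono ?_) (measure_iUnion_le _)) le_rfl
  intro η hη
  obtain ⟨n, hn⟩ := hη j
  obtain ⟨p, -, hp⟩ := exists_hit δ hn
  exact Set.mem_iUnion.mpr ⟨p, hp⟩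

lemma sum_pre_le (hμ : Elliptic μ) (G k : ℕ) :
    (∑ j ∈ Finset.range G, ∑' p, nu μ (Pre δ j p ∩ {η | regNumBy δ j (p + patLen d) η < k})) *
      nu μ (NoBack δ) ≤ k := by
  classical
  have := isProbabilityMeasure_nu hμ
  set S : ℕ → Set (ℕ → Step d) := fun j => ⋃ p, (Pre δ j p ∩ {η | regNumBy δ j (p + patLen d) η < k})
    ∩ shift (p + patLen d) ⁻¹' (Set.univ ∩ NoBack δ) with hS
  have hdet : ∀ j p, DetBy (p + patLen d)
      (Pre δ j p ∩ {η | regNumBy δ j (p + patLen d) η < k}) := fun j p =>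
    (detBy_pre j p).inter fun η η' he hη => by
      simp only [Set.mem_ofPred_eq] at hη ⊢
      rwa [← regNumBy_congr he]
  have hSm : ∀ j, MeasurableSet (S j) := fun j => MeasurableSet.iUnion fun p =>
    (hdet j p).measurableSet.inter
      (measurable_shift _ (MeasurableSet.univ.inter (measurableSet_noBack δ)))
  have hmeas : ∀ j, nu μ (S j) = (∑' p,
      nu μ (Pre δ j p ∩ {η | regNumBy δ j (p + patLen d) η < k})) * nu μ (NoBack δ) := fun j => by
    rw [hS, measure_iUnion]
    · rw [← ENNReal.tsum_mul_right]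
      refine tsum_congr fun p => ?_
      rw [split_pre hμ (hdet j p) Set.inter_subset_left MeasurableSet.univ, Set.univ_inter]
    · intro p p' hne
      exact Set.disjoint_left.mpr fun η hη hη' => hne (pre_unique hη.1.1 hη'.1.1)
    · exact fun p => (hdet j p).measurableSet.inter
        (measurable_shift _ (MeasurableSet.univ.inter (measurableSet_noBack δ)))
  rw [Finset.sum_mul, ← Finset.sum_congr rfl fun j _ => hmeas j]
  calc ∑ j ∈ Finset.range G, nu μ (S j)
      = ∫⁻ η, ∑ j ∈ Finset.range G, (S j).indicator 1 η ∂nu μ := by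
        rw [lintegral_finset_sum _ fun j _ => measurable_one.indicator (hSm j)]
        exact Finset.sum_congr rfl fun j _ => (lintegral_indicator_one (hSm j)).symm
    _ ≤ ∫⁻ _η, (k : ℝ≥0∞) ∂nu μ := by
        refine lintegral_mono fun η => ?_
        simp only [Set.indicator_apply, Pi.one_apply, Finset.sum_boole]
        refine Nat.cast_le.mpr ?_
        have hmem : ∀ j, η ∈ S j → η ∈ Reg δ j ∧ regNum δ j η < k := fun j hj => by
          obtain ⟨p, ⟨hp, hk⟩, -, hnb⟩ := Set.mem_iUnion.mp hj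
          exact ⟨⟨p, hp, hnb⟩, by rw [regNum_eq_by hp hnb]; exact hk⟩
        have hinj : ∀ a b, η ∈ S a → a < b → regNum δ a η < regNum δ b η := fun a b ha hab => by
          refine Finset.card_lt_card (Finset.ssubset_iff_subset_ne.mpr ⟨fun i hi => ?_, fun he => ?_⟩)
          · simp only [Finset.mem_filter, Finset.mem_range] at hi ⊢
            exact ⟨by omega, hi.2⟩
          · have : a ∈ (Finset.range b).filter (fun i => η ∈ Reg δ i) := by
              simp only [Finset.mem_filter, Finset.mem_range]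
              exact ⟨hab, (hmem a ha).1⟩
            rw [← he] at this
            simp at this
        refine le_of_le_of_eq (Finset.card_le_card_of_injOn (t := Finset.range k)
          (fun j => regNum δ j η) ?_ ?_) (Finset.card_range k)
        · intro j hj
          simp only [Finset.coe_filter, Set.mem_ofPred_eq] at hj
          simpa using (hmem j hj.2).2
        · intro a ha b hb he
          simp only [Finset.coe_filter, Set.mem_ofPred_eq] at ha hb
          rcases lt_trichotomy a b with h | h | h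
          · exact absurd he (hinj a b ha.2 h).ne
          · exact h
          · exact absurd he (hinj b a hb.2 h).ne'
    _ = k := by simp

lemma few_reg_le (hμ : Elliptic μ) (M k : ℕ) :
    nu μ (Reg δ 0 ∩ {η | regNum δ (M + 1) η ≤ k}) ≤ ∑ j ∈ Finset.range (M + 1),
      (∑' p, nu μ (Pre δ j p ∩ {η | regNumBy δ j (p + patLen d) η < k})) *
        gapProb μ δ (M + 1 - j - d) := by
  classical
  have hdet : ∀ j p, DetBy (p + patLen d)
      (Pre δ j p ∩ {η | regNumBy δ j (p + patLen d) η < k}) := fun j p =>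
    (detBy_pre j p).inter fun η η' he hη => by
      simp only [Set.mem_ofPred_eq] at hη ⊢
      rwa [← regNumBy_congr he]
  refine le_trans (measure_mono (t := ⋃ j ∈ Finset.range (M + 1), ⋃ p,
    (Pre δ j p ∩ {η | regNumBy δ j (p + patLen d) η < k}) ∩
      shift (p + patLen d) ⁻¹' (NoReg δ (M + 1 - j - d) ∩ NoBack δ)) ?_) ?_
  · rintro η ⟨h0, hk⟩
    set s := (Finset.range (M + 1)).filter (fun i => η ∈ Reg δ i) with hs
    have hne : s.Nonempty := ⟨0, by simp [hs, h0]⟩
    have hj := s.max'_mem hne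
    set j := s.max' hne with hjdef
    rw [hs, Finset.mem_filter, Finset.mem_range] at hj
    obtain ⟨p, hp, hnb⟩ := hj.2
    simp only [Set.mem_iUnion, Finset.mem_range, exists_prop]
    refine ⟨j, hj.1, p, ⟨hp, ?_⟩, fun i hi hreg => ?_, hnb⟩
    · show regNumBy δ j (p + patLen d) η < k
      rw [← regNum_eq_by hp hnb]
      refine lt_of_lt_of_le ?_ hk
      refine Finset.card_lt_card (Finset.ssubset_iff_subset_ne.mpr ⟨fun i hi => ?_, fun he => ?_⟩)
      · simp only [Finset.mem_filter, Finset.mem_range] at hi ⊢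
        exact ⟨by omega, hi.2⟩
      · have : j ∈ (Finset.range (M + 1)).filter (fun i => η ∈ Reg δ i) := by
          simp only [Finset.mem_filter, Finset.mem_range]
          exact hj
        rw [← he] at this
        simp at this
    · have hmem : j + d + i ∈ s := by
        simp only [hs, Finset.mem_filter, Finset.mem_range]
        exact ⟨by omega, reg_of_shift hp hreg⟩
      have := s.le_max' _ hmem
      have := NeZero.pos d
      omega
  · refine le_trans (measure_biUnion_finset_le _ _) (Finset.sum_le_sum fun j _ => ?_)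
    refine le_trans (measure_iUnion_le _) ?_
    rw [← ENNReal.tsum_mul_right]
    refine ENNReal.tsum_le_tsum fun p => le_of_eq ?_
    exact split_pre hμ (hdet j p) Set.inter_subset_left (measurableSet_noReg _)

/-- Few regeneration levels below `G` are unlikely. -/
theorem few_reg (hμ : Elliptic μ) (hU : 0 < nu μ (Unbdd δ)) (hD : 0 < nu μ (NoBack δ)) :
    ∃ K : ℝ≥0∞, K ≠ ∞ ∧ ∀ G k : ℕ,
      (G : ℝ≥0∞) * nu μ (Reg δ 0 ∩ {η | regNum δ G η ≤ k}) ≤ K * k := by
  have := isProbabilityMeasure_nu hμ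
  set c := nu μ (Unbdd δ) * w μ (patLen d) (pat δ) with hc
  have hc0 : c ≠ 0 := mul_ne_zero hU.ne' (w_ne_zero hμ _ _)
  have hct : c ≠ ∞ := ENNReal.mul_ne_top (measure_ne_top _ _) (w_ne_top hμ _ _)
  have hB : ∀ n, ∑ g ∈ Finset.range n, gapProb μ δ g ≤ c⁻¹ := fun n => by
    rcases n with _ | n
    · simp
    · rw [← ENNReal.mul_le_mul_iff_right hc0 hct, ENNReal.mul_inv_cancel hc0 hct]
      exact sum_gapProb_le hμ n
  refine ⟨((d : ℝ≥0∞) + 1) * c⁻¹ * (nu μ (NoBack δ))⁻¹, ?_, fun G k => ?_⟩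
  · exact ENNReal.mul_ne_top (ENNReal.mul_ne_top (by finiteness) (ENNReal.inv_ne_top.mpr hc0))
      (ENNReal.inv_ne_top.mpr hD.ne')
  set A : ℕ → ℝ≥0∞ := fun j =>
    ∑' p, nu μ (Pre δ j p ∩ {η | regNumBy δ j (p + patLen d) η < k}) with hA
  have hgap : ∀ j, j ≤ G → ∑ M ∈ Finset.Ico j G, gapProb μ δ (M + 1 - j - d)
      ≤ ((d : ℝ≥0∞) + 1) * c⁻¹ := fun j hj => by
    rw [Finset.sum_Ico_eq_sum_range]
    refine le_trans (Finset.sum_le_sum_of_subset (t := Finset.range (d + G))
      (Finset.range_mono (by omega))) ?_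
    rw [Finset.sum_range_add, add_mul, one_mul]
    refine add_le_add ?_ (le_trans ?_ (hB (G + 1)))
    · refine le_trans (Finset.sum_le_card_nsmul _ _ c⁻¹ fun u hu => ?_) ?_
      · refine le_trans ?_ (hB 1)
        rw [Finset.sum_range_one]
        rw [Finset.mem_range] at hu
        rw [show j + u + 1 - j - d = 0 by omega]
      · rw [Finset.card_range, nsmul_eq_mul]
    · rw [Finset.sum_range_succ']
      refine le_trans (le_of_eq (Finset.sum_congr rfl fun u _ => ?_)) (le_self_add)
      congr 1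
      omega
  calc (G : ℝ≥0∞) * nu μ (Reg δ 0 ∩ {η | regNum δ G η ≤ k})
      ≤ ∑ M ∈ Finset.range G, nu μ (Reg δ 0 ∩ {η | regNum δ (M + 1) η ≤ k}) := by
        refine le_trans (le_of_eq ?_) (Finset.card_nsmul_le_sum _ _
          (nu μ (Reg δ 0 ∩ {η | regNum δ G η ≤ k})) fun M hM => ?_)
        · rw [Finset.card_range, nsmul_eq_mul]
        · refine measure_mono (Set.inter_subset_inter_right _ fun η hη => ?_)
          change regNum δ (M + 1) η ≤ k
          refine le_trans ?_ hη
          refine Finset.card_le_card fun i hi => ?_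
          simp only [Finset.mem_filter, Finset.mem_range] at hM hi ⊢
          exact ⟨by omega, hi.2⟩
    _ ≤ ∑ M ∈ Finset.range G, ∑ j ∈ Finset.range (M + 1), A j * gapProb μ δ (M + 1 - j - d) :=
        Finset.sum_le_sum fun M _ => few_reg_le hμ M k
    _ = ∑ j ∈ Finset.range G, ∑ M ∈ Finset.Ico j G, A j * gapProb μ δ (M + 1 - j - d) := by
        refine Finset.sum_comm' fun M j => ?_
        simp only [Finset.mem_range, Finset.mem_Ico]
        omega
    _ ≤ ∑ j ∈ Finset.range G, A j * (((d : ℝ≥0∞) + 1) * c⁻¹) := by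
        refine Finset.sum_le_sum fun j hj => ?_
        rw [← Finset.mul_sum]
        exact mul_le_mul' le_rfl (hgap j (Finset.mem_range.mp hj).le)
    _ = ((d : ℝ≥0∞) + 1) * c⁻¹ * (nu μ (NoBack δ))⁻¹ *
          ((∑ j ∈ Finset.range G, A j) * nu μ (NoBack δ)) := by
        rw [← Finset.sum_mul]
        calc (∑ j ∈ Finset.range G, A j) * (((d : ℝ≥0∞) + 1) * c⁻¹)
            = ((d : ℝ≥0∞) + 1) * c⁻¹ * ((nu μ (NoBack δ))⁻¹ * nu μ (NoBack δ)) *
                (∑ j ∈ Finset.range G, A j) := by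
              rw [ENNReal.inv_mul_cancel hD.ne' (measure_ne_top _ _)]; ring
          _ = _ := by ring
    _ ≤ _ := mul_le_mul' le_rfl (sum_pre_le hμ G k)

end Vale.Agent.P147
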